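import Vale.Agent.P146.Defs

/-! Elementary facts about pieces and their placements. -/

noncomputable section

namespace Vale.Agent.P146

variable {n : ℕ}

/-- the edge joining two distinct vertices -/
def mkE (a b : Fin n) (h : a ≠ b) : Edge n :=
  if hab : a < b then ⟨(a, b), hab⟩ else ⟨(b, a), lt_of_le_of_ne (not_lt.1 hab) h.symm⟩

lemma mkE_val (a b : Fin n) (h : a ≠ b) : (mkE a b h).1 = (a, b) ∨ (mkE a b h).1 = (b, a) := by
  unfold mkE; split_ifs <;> simp

lemma eq_mkE {a b : Fin n} (h : a ≠ b) {e : Edge n} (he : e.1 = (a, b) ∨ e.1 = (b, a)) : e = mkE a b h := by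
  have h1 := mkE_val a b h
  have h2 := e.2
  have h3 := (mkE a b h).2
  rcases he with he | he <;> rcases h1 with h1 | h1 <;> rw [he] at h2 <;> rw [h1] at h3 <;>
    first
      | exact Subtype.ext (he.trans h1.symm)
      | exact absurd h2 (not_lt.2 h3.le)

lemma mkE_comm (a b : Fin n) (h : a ≠ b) : mkE a b h = mkE b a h.symm :=
  eq_mkE h.symm (mkE_val a b h).symm

lemma mkE_inj {a b a' b' : Fin n} {h : a ≠ b} {h' : a' ≠ b'} (he : mkE a b h = mkE a' b' h') :
    (a = a' ∧ b = b') ∨ (a = b' ∧ b = a') := by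
  have h1 := mkE_val a b h
  have h2 := mkE_val a' b' h'
  rw [he] at h1
  rcases h1 with h1 | h1 <;> rcases h2 with h2 | h2 <;> rw [h1] at h2 <;>
    obtain ⟨r, s⟩ := Prod.ext_iff.1 h2 <;> simp_all

lemma pairIdx_eq_single (a b : Fin n) (h : a ≠ b) : pairIdx a b = Pi.single (mkE a b h) 1 := by
  funext e
  unfold pairIdx
  by_cases he : e = mkE a b h
  · subst he
    rw [if_pos (mkE_val a b h), Pi.single_eq_same]
  · rw [Pi.single_eq_of_ne he, if_neg fun h' => he (eq_mkE h h')]

lemma pairIdx_swap (a b : Fin n) : pairIdx a b = pairIdx b a := by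
  funext e; simp only [pairIdx, or_comm]

lemma cpl_mkE (g : Edge n → ℝ) (a b : Fin n) (h : a ≠ b) : cpl g a b = g (mkE a b h) := by
  unfold cpl mkE
  by_cases hab : a < b
  · simp [hab]
  · have hba : b < a := lt_of_le_of_ne (not_lt.1 hab) h.symm
    simp [hab, hba]

lemma bond_mkE (x : Cfg n) (a b : Fin n) (h : a ≠ b) : bond x (mkE a b h) = spin (x a) * spin (x b) := by
  rcases mkE_val a b h with h1 | h1 <;> simp [bond, h1, mul_comm]

/-- the two end points of an edge -/
def endsOf (e : Edge n) : Finset (Fin n) := {e.1.1, e.1.2}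

lemma vdeg_eq_zero_iff (α : Idx n) (v : Fin n) :
    vdeg α v = 0 ↔ ∀ e : Edge n, α e ≠ 0 → e.1.1 ≠ v ∧ e.1.2 ≠ v := by
  unfold vdeg
  rw [Finset.sum_eq_zero_iff]
  constructor
  · intro h e he
    have := h e (Finset.mem_univ e)
    by_contra hc
    rw [if_pos (by tauto)] at this
    exact he this
  · intro h e _
    split_ifs with hv
    · by_contra he
      have := h e he
      tauto
    · rfl

lemma supp_card_le (α : Idx n) : (supp α).card ≤ 2 * deg α := by
  have h : supp α ⊆ (Finset.univ.filter fun e => α e ≠ 0).biUnion endsOf := fun v hv => by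
    simp only [supp, Finset.mem_filter, ne_eq, vdeg_eq_zero_iff] at hv
    push Not at hv
    obtain ⟨-, e, he, hv⟩ := hv
    refine Finset.mem_biUnion.2 ⟨e, by simp [he], ?_⟩
    simp only [endsOf, Finset.mem_insert, Finset.mem_singleton]
    by_cases h1 : e.1.1 = v
    · exact Or.inl h1.symm
    · exact Or.inr (hv h1).symm
  refine (Finset.card_le_card h).trans (Finset.card_biUnion_le.trans ?_)
  calc ∑ e ∈ Finset.univ.filter (fun e => α e ≠ 0), (endsOf e).card
      ≤ ∑ e ∈ Finset.univ.filter (fun e => α e ≠ 0), 2 * α e := Finset.sum_le_sum fun e he => by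
        have h2 := (Finset.mem_filter.1 he).2
        have h3 : (endsOf e).card ≤ 2 := Finset.card_insert_le _ _ |>.trans (by simp)
        omega
    _ ≤ ∑ e, 2 * α e := Finset.sum_le_univ_sum_of_nonneg fun _ => by omega
    _ = 2 * deg α := by rw [deg, Finset.mul_sum]

namespace Piece

variable {V : Type*} (P : Piece V)

lemma mem_inner_iff {j : Fin P.m} : j ∈ P.inner ↔ P.link j = true := by simp [inner]

variable {P}

lemma Valid.next_val (h : P.Valid) {j : Fin P.m} (hj : j ∈ P.inner) : (P.next j : ℕ) = j + 1 := by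
  simp [Piece.next, h.link_lt j (P.mem_inner_iff.1 hj)]

lemma Valid.next_ne (h : P.Valid) {j : Fin P.m} (hj : j ∈ P.inner) : P.next j ≠ j := fun e => by
  have := h.next_val hj
  rw [e] at this
  omega

lemma Valid.next_injOn (h : P.Valid) : Set.InjOn P.next (P.inner : Set (Fin P.m)) := fun a ha b hb e => by
  have h1 := h.next_val ha
  rw [e, h.next_val hb] at h1
  exact Fin.ext (by omega)

lemma Valid.next_count (h : P.Valid) (j : Fin P.m) : (P.inner.filter fun i => P.next i = j).card ≤ 1 :=
  Finset.card_le_one.2 fun a ha b hb => h.next_injOn (Finset.mem_filter.1 ha).1 (Finset.mem_filter.1 hb).1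
    ((Finset.mem_filter.1 ha).2.trans (Finset.mem_filter.1 hb).2.symm)

variable (P) in
/-- edges with a free end and a pinned end -/
def extFree : Finset (Fin P.k) := Finset.univ.filter fun x => (P.ext x).2.isLeft = true

lemma Valid.handshake (h : P.Valid) : 2 * P.inner.card + P.extFree.card = 2 * P.m := by
  have e : ∀ j, P.fdeg j = 2 := h.deg_two
  have s : ∑ j, P.fdeg j = 2 * P.m := by simp [e, mul_comm]
  rw [← s]
  unfold fdeg
  rw [Finset.sum_add_distrib, Finset.sum_add_distrib]
  have s1 : ∑ j : Fin P.m, (P.inner.filter fun i => i = j).card = P.inner.card :=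
    (Finset.card_eq_sum_card_fiberwise (f := fun i => i) fun _ _ => Finset.mem_univ _).symm
  have s2 : ∑ j : Fin P.m, (P.inner.filter fun i => P.next i = j).card = P.inner.card :=
    (Finset.card_eq_sum_card_fiberwise (f := P.next) fun _ _ => Finset.mem_univ _).symm
  have s3 : ∑ j : Fin P.m, (Finset.univ.filter fun x => (P.ext x).2.getLeft? = some j).card = P.extFree.card := by
    simp only [Finset.card_eq_sum_ones, Finset.sum_filter, extFree]
    rw [Finset.sum_comm]
    refine Finset.sum_congr rfl fun x _ => ?_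
    rcases (P.ext x).2 with i | v <;> simp
  omega

lemma Valid.inner_le (h : P.Valid) : P.inner.card ≤ P.m := by have := h.handshake; omega

lemma Valid.extFree_le (P : Piece V) : P.extFree.card ≤ P.k :=
  (Finset.card_le_univ _).trans (by simp)

lemma Valid.m_le_size (h : P.Valid) : P.m ≤ P.size := by
  have := h.handshake; have := Valid.extFree_le P; unfold size; omega

lemma Valid.size_eq (h : P.Valid) : P.size = P.m + P.order := by
  have := h.m_le_size; unfold order; omega

lemma Valid.order_facts (h : P.Valid) :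
    P.m - P.inner.card ≤ P.order ∧ P.k ≤ 2 * P.order ∧ (0 < P.k → 0 < P.order) := by
  have h1 := h.handshake; have h2 := Valid.extFree_le P; have h3 := h.size_eq
  have h4 := h.inner_le
  unfold size at h3
  omega

lemma Valid.f_one (h : P.Valid) {j : Fin P.m} (hj : j ∈ P.inner) (hp : ∃ i ∈ P.inner, P.next i = j)
    (x : Fin P.k) : (P.ext x).2 ≠ Sum.inl j := by
  intro hx
  obtain ⟨i, hi, hij⟩ := hp
  have h1 : 1 ≤ (P.inner.filter fun i => i = j).card :=
    Finset.card_pos.2 ⟨j, Finset.mem_filter.2 ⟨hj, rfl⟩⟩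
  have h2 : 1 ≤ (P.inner.filter fun i => P.next i = j).card :=
    Finset.card_pos.2 ⟨i, Finset.mem_filter.2 ⟨hi, hij⟩⟩
  have h3 : 1 ≤ (Finset.univ.filter fun x => (P.ext x).2.getLeft? = some j).card :=
    Finset.card_pos.2 ⟨x, by simp [hx]⟩
  have := h.deg_two j
  unfold fdeg at this
  omega

variable {P : Piece (Fin n)} {φ : Fin P.m → Fin n}

/-- all pinned vertices -/
def pinSet (P : Piece (Fin n)) : Finset (Fin n) :=
  Finset.univ.biUnion fun x => Sum.elim (fun _ => {(P.ext x).1}) (fun v => {(P.ext x).1, v}) (P.ext x).2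

lemma pinSet_card (P : Piece (Fin n)) : P.pinSet.card ≤ 2 * P.k := by
  refine Finset.card_biUnion_le.trans ((Finset.sum_le_card_nsmul _ _ 2 fun x _ => ?_).trans (by simp [mul_comm]))
  rcases (P.ext x).2 with j | v
  · simp
  · exact (Finset.card_insert_le _ _).trans (by simp)

lemma fst_mem_pinSet (P : Piece (Fin n)) (x : Fin P.k) : (P.ext x).1 ∈ P.pinSet := by
  refine Finset.mem_biUnion.2 ⟨x, Finset.mem_univ x, ?_⟩
  rcases (P.ext x).2 with j | v <;> simp

lemma snd_mem_pinSet (P : Piece (Fin n)) {x : Fin P.k} {v : Fin n} (h : (P.ext x).2 = Sum.inr v) :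
    v ∈ P.pinSet :=
  Finset.mem_biUnion.2 ⟨x, Finset.mem_univ x, by simp [h]⟩

lemma good_iff : P.Good φ ↔ Function.Injective φ ∧ ∀ j, φ j ∉ P.pinSet := by
  constructor
  · refine fun h => ⟨h.inj, fun j hj => ?_⟩
    obtain ⟨x, -, hx⟩ := Finset.mem_biUnion.1 hj
    rcases hs : (P.ext x).2 with i | v <;> simp only [hs, Sum.elim_inl, Sum.elim_inr, Finset.mem_singleton,
      Finset.mem_insert] at hx
    · exact h.off_fst j x hx
    · rcases hx with hx | hx
      · exact h.off_fst j x hx
      · exact h.off_snd j x v hs hx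
  · exact fun h => ⟨h.1, fun j x e => h.2 j (e ▸ P.fst_mem_pinSet x),
      fun j x v hs e => h.2 j (e ▸ P.snd_mem_pinSet hs)⟩

lemma Good.link_ne' (hg : P.Good φ) (hv : P.Valid) {j : Fin P.m} (hj : j ∈ P.inner) : φ j ≠ φ (P.next j) :=
  fun e => hv.next_ne hj (hg.inj e).symm

lemma Good.ext_ne' (hg : P.Good φ) (hv : P.Valid) (x : Fin P.k) :
    (P.ext x).1 ≠ Sum.elim φ id (P.ext x).2 := by
  rcases hs : (P.ext x).2 with i | v
  · simpa using (hg.off_fst i x).symm
  · simpa using hv.no_loop x v hs

/-- the coupling of a link under a placement -/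
def innE (hv : P.Valid) (hg : P.Good φ) (j : {j // j ∈ P.inner}) : Edge n :=
  mkE (φ j.1) (φ (P.next j.1)) (hg.link_ne' hv j.2)

/-- the coupling of an edge with a pinned end under a placement -/
def extE (hv : P.Valid) (hg : P.Good φ) (x : Fin P.k) : Edge n :=
  mkE (P.ext x).1 (Sum.elim φ id (P.ext x).2) (hg.ext_ne' hv x)

lemma innE_injective (hv : P.Valid) (hg : P.Good φ) : Function.Injective (innE hv hg) := by
  intro a b e
  rcases mkE_inj e with ⟨h1, -⟩ | ⟨h1, h2⟩
  · exact Subtype.ext (hg.inj h1)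
  · have e1 := hv.next_val a.2; have e2 := hv.next_val b.2
    have q1 := congrArg Fin.val (hg.inj h1); have q2 := congrArg Fin.val (hg.inj h2)
    omega

lemma countIdx_ofFn {k : ℕ} (f : Fin k → Edge n) : countIdx (List.ofFn f) = ∑ x, Pi.single (f x) (1 : ℕ) := by
  induction k with
  | zero => funext e; simp [countIdx]
  | succ k ih =>
    rw [Fin.sum_univ_succ, ← ih fun x => f x.succ, List.ofFn_succ]
    funext e
    simp only [countIdx, List.count_cons, Pi.add_apply, Pi.single_apply, beq_iff_eq]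
    split_ifs <;> simp_all <;> omega

lemma idx_eq_count (hv : P.Valid) (hg : P.Good φ) :
    P.idx φ = countIdx (List.ofFn (extE hv hg)) + ∑ j, Pi.single (innE hv hg j) 1 := by
  rw [countIdx_ofFn, idx]
  refine congrArg₂ _ (Finset.sum_congr rfl fun x _ => pairIdx_eq_single _ _ (hg.ext_ne' hv x)) ?_
  rw [← Finset.sum_coe_sort]
  exact Finset.sum_congr rfl fun j _ => pairIdx_eq_single _ _ (hg.link_ne' hv j.2)

lemma innerProd_eq (hv : P.Valid) (hg : P.Good φ) (g : Edge n → ℝ) :
    P.innerProd φ g = ∏ j, g (innE hv hg j) := by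
  rw [innerProd, ← Finset.prod_coe_sort]
  exact Finset.prod_congr rfl fun j _ => cpl_mkE g _ _ (hg.link_ne' hv j.2)

end Piece

end Vale.Agent.P146
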