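import Vale.Agent.P146.Piece.Basic
import Vale.Agent.P146.Deriv
import Vale.Agent.P146.Trace

/-! The test function of a piece and its second moment. -/

open MeasureTheory
open Vale.Agent.P150 (gauss)

noncomputable section

namespace Vale.Agent.P146.Piece

variable {n : ℕ} (P : Piece (Fin n))

open Classical in
/-- all placements -/
def goodSet : Finset (Fin P.m → Fin n) := Finset.univ.filter fun φ => P.Good φ

/-- `X = ∑_φ (product of the couplings along the links) · (derivative at the edges with a pinned end)` -/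
def xFun (β : ℝ) (hv : P.Valid) (g : Edge n → ℝ) : ℝ :=
  ∑ φ : {φ : Fin P.m → Fin n // φ ∈ P.goodSet},
    P.innerProd φ.1 g * dFree β (List.ofFn (extE hv (by classical exact (Finset.mem_filter.1 φ.2).2))) g

lemma continuous_innerProd (φ : Fin P.m → Fin n) : Continuous (P.innerProd φ) := by
  refine continuous_finsetProd _ fun j _ => ?_
  unfold cpl
  split_ifs <;> fun_prop

lemma continuous_xFun (β : ℝ) (hv : P.Valid) : Continuous (P.xFun β hv) :=
  continuous_finsetSum _ fun φ _ => (P.continuous_innerProd φ.1).mul (continuous_dFree β _)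

/-- the sign carried by the pinned ends -/
def pinSign {k' : ℕ} (π : Fin P.k → Fin k') (x : Fin k' → Cfg n) : ℝ :=
  ∏ i, spin (x (π i) (P.ext i).1) * Sum.elim (fun _ => 1) (fun v => spin (x (π i) v)) (P.ext i).2

/-- the end vectors seen by the free vertices -/
def endVec {k' : ℕ} (π : Fin P.k → Fin k') (x : Fin k' → Cfg n) (j : Fin P.m) (a : Fin n) : ℝ :=
  ∏ i, if (P.ext i).2 = Sum.inl j then spin (x (π i) a) else 1

lemma abs_pinSign {k' : ℕ} (π : Fin P.k → Fin k') (x : Fin k' → Cfg n) : |P.pinSign π x| = 1 := by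
  rw [pinSign, Finset.abs_prod]
  refine Finset.prod_eq_one fun i _ => ?_
  rcases (P.ext i).2 with j | v <;> simp [abs_mul, Vale.Agent.P146.abs_spin]

lemma abs_endVec {k' : ℕ} (π : Fin P.k → Fin k') (x : Fin k' → Cfg n) (j : Fin P.m) (a : Fin n) :
    |P.endVec π x j a| ≤ 1 := by
  rw [endVec, Finset.abs_prod]
  refine le_of_eq (Finset.prod_eq_one fun i _ => ?_)
  split_ifs <;> simp [Vale.Agent.P146.abs_spin]

lemma bonds_eq {k' : ℕ} (π : Fin P.k → Fin k') (x : Fin k' → Cfg n) (hv : P.Valid)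
    {φ : Fin P.m → Fin n} (hg : P.Good φ) :
    ∏ i, bond (x (π i)) (extE hv hg i) = P.pinSign π x * ∏ j, P.endVec π x j (φ j) := by
  unfold endVec pinSign
  rw [Finset.prod_comm (s := (Finset.univ : Finset (Fin P.m))), ← Finset.prod_mul_distrib]
  refine Finset.prod_congr rfl fun i _ => ?_
  unfold extE
  rw [bond_mkE]
  rcases hs : (P.ext i).2 with j | v
  · simp
  · simp

theorem xFun_bound : ∃ C : ℕ, ∀ (n K : ℕ) (β : ℝ) (P : Piece (Fin n)) (hv : P.Valid),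
    0 < P.k → P.size ≤ K → 2 ≤ K → 1 + β ^ 2 ≤ K → K ^ C ≤ n → n ≤ 2 ^ K →
    MemLp (P.xFun β hv) 2 (gauss (Edge n)) ∧
      ∫ g, P.xFun β hv g ^ 2 ∂gauss (Edge n) ≤
        (K : ℝ) ^ (C * P.order) * (n : ℝ) ^ (2 * P.m) / (n : ℝ) ^ P.size := by
  obtain ⟨C₀, hC₀⟩ := chain_bound
  refine ⟨C₀ + 10, fun n K β P hv hk hsize hK hβ hn hn2 => ?_⟩
  have hn0 : 0 < n := lt_of_lt_of_le (pow_pos (by omega) _) hn
  have hnr : (0:ℝ) < n := by exact_mod_cast hn0
  have hK1 : (1:ℝ) ≤ K := by exact_mod_cast (by omega : 1 ≤ K)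
  obtain ⟨hB, hko, -⟩ := hv.order_facts
  obtain ⟨N, hNm, hNint, hN⟩ := hC₀ n K P hv.link_lt (hv.m_le_size.trans hsize) hK
    ((pow_le_pow_right₀ (by omega) (by omega)).trans hn) hn2 P.goodSet
    (fun φ hφ => by
      classical
      exact ((Finset.mem_filter.1 hφ).2).inj)
  obtain ⟨T, c, π, hc, hr⟩ := dFree_repr P.k hk
  set B := P.m - P.inner.card with hBdef
  set M : ℝ := (|β| / Real.sqrt n) ^ P.k * (2 * (P.k:ℝ)) ^ P.k * (n:ℝ) ^ B with hM
  have hX : ∀ g, |P.xFun β hv g| ≤ M * N g := by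
    intro g
    have hNg : 0 ≤ N g := by
      have h0 := hN g (fun j a => 1) (fun j a => by simp) (fun _ _ _ _ => rfl)
      exact nonneg_of_mul_nonneg_left ((abs_nonneg _).trans h0) (pow_pos hnr _)
    have hx : P.xFun β hv g = (β / Real.sqrt n) ^ P.k * ∑ t, c t * ∑ x : Fin P.k → Cfg n,
        (∏ a, gibbs β g (x a)) * P.pinSign (π t) x *
          ∑ φ ∈ P.goodSet, P.innerProd φ g * ∏ j, P.endVec (π t) x j (φ j) := by
      simp only [xFun, hr n β g, avg, bonds_eq, Finset.mul_sum]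
      rw [Finset.sum_comm]
      refine Finset.sum_congr rfl fun t _ => ?_
      rw [Finset.sum_comm]
      refine Finset.sum_congr rfl fun x _ => ?_
      conv_rhs => rw [← Finset.sum_coe_sort]
      exact Finset.sum_congr rfl fun φ _ => by ring
    rw [hx, abs_mul, abs_pow, abs_div, abs_of_nonneg (Real.sqrt_nonneg _), hM]
    have hin : ∀ t, |c t * ∑ x : Fin P.k → Cfg n, (∏ a, gibbs β g (x a)) * P.pinSign (π t) x *
        ∑ φ ∈ P.goodSet, P.innerProd φ g * ∏ j, P.endVec (π t) x j (φ j)| ≤ |c t| * (N g * (n:ℝ) ^ B) := by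
      intro t
      rw [abs_mul]
      refine mul_le_mul_of_nonneg_left ?_ (abs_nonneg _)
      have h1 : ∑ x : Fin P.k → Cfg n, ∏ a, gibbs β g (x a) = 1 := by
        rw [← Fintype.sum_pow]; simp [sum_gibbs]
      refine (Finset.abs_sum_le_sum_abs _ _).trans ?_
      rw [← one_mul (N g * (n:ℝ) ^ B), ← h1, Finset.sum_mul]
      refine Finset.sum_le_sum fun x _ => ?_
      rw [abs_mul, abs_mul, P.abs_pinSign, mul_one,
        abs_of_nonneg (Finset.prod_nonneg fun a _ => gibbs_nonneg β g (x a))]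
      refine mul_le_mul_of_nonneg_left (hN g _ (P.abs_endVec (π t) x) fun j hj hp a => ?_)
        (Finset.prod_nonneg fun a _ => gibbs_nonneg β g (x a))
      exact Finset.prod_eq_one fun i _ => if_neg (hv.f_one hj hp i)
    calc (|β| / Real.sqrt n) ^ P.k * |_| ≤ (|β| / Real.sqrt n) ^ P.k * ∑ t, |c t| * (N g * (n:ℝ) ^ B) :=
          mul_le_mul_of_nonneg_left ((Finset.abs_sum_le_sum_abs _ _).trans (Finset.sum_le_sum fun t _ => hin t))
            (by positivity)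
      _ ≤ (|β| / Real.sqrt n) ^ P.k * ((2 * (P.k:ℝ)) ^ P.k * (N g * (n:ℝ) ^ B)) := by
          rw [← Finset.sum_mul]
          exact mul_le_mul_of_nonneg_left (mul_le_mul_of_nonneg_right hc (by positivity)) (by positivity)
      _ = _ := by ring
  have hXm : MemLp (P.xFun β hv) 2 (gauss (Edge n)) :=
    hNm.of_le_mul (c := M) (P.continuous_xFun β hv).aestronglyMeasurable
      (Filter.Eventually.of_forall fun g => by
        rw [Real.norm_eq_abs, Real.norm_eq_abs]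
        exact (hX g).trans (mul_le_mul_of_nonneg_left (le_abs_self _) (by positivity)))
  refine ⟨hXm, ?_⟩
  have h2 : ∫ g, P.xFun β hv g ^ 2 ∂gauss (Edge n) ≤ M ^ 2 * ∫ g, N g ^ 2 ∂gauss (Edge n) := by
    rw [← integral_const_mul]
    refine integral_mono hXm.integrable_sq (hNm.integrable_sq.const_mul _) fun g => ?_
    show P.xFun β hv g ^ 2 ≤ M ^ 2 * N g ^ 2
    rw [← mul_pow, ← sq_abs (P.xFun β hv g)]
    exact pow_le_pow_left₀ (abs_nonneg _) (hX g) 2
  refine h2.trans ((mul_le_mul_of_nonneg_left hNint (sq_nonneg M)).trans ?_)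
  have hkK : P.k ≤ K := le_trans (Nat.le_add_right _ _) hsize
  have e1 : M ^ 2 = (β ^ 2 / n) ^ P.k * ((2 * (P.k:ℝ)) ^ 2) ^ P.k * ((n:ℝ) ^ B) ^ 2 := by
    rw [hM, mul_pow, mul_pow, ← pow_mul, ← pow_mul, mul_comm P.k 2, pow_mul, pow_mul, div_pow, sq_abs,
      Real.sq_sqrt hnr.le]
  have hb : β ^ 2 * (2 * (P.k:ℝ)) ^ 2 ≤ (K:ℝ) ^ 5 := by
    have h1 : β ^ 2 ≤ K := by linarith
    have h3 : 2 * (P.k:ℝ) ≤ (K:ℝ) ^ 2 := by exact_mod_cast (show 2 * P.k ≤ K ^ 2 by nlinarith)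
    calc β ^ 2 * (2 * (P.k:ℝ)) ^ 2 ≤ (K:ℝ) * ((K:ℝ) ^ 2) ^ 2 :=
          mul_le_mul h1 (pow_le_pow_left₀ (by positivity) h3 2) (by positivity) (by linarith)
      _ = _ := by ring
  have hnum : (β ^ 2) ^ P.k * ((2 * (P.k:ℝ)) ^ 2) ^ P.k * (K:ℝ) ^ (C₀ * B) ≤ (K:ℝ) ^ ((C₀ + 10) * P.order) := by
    rw [← mul_pow]
    refine (mul_le_mul_of_nonneg_right (pow_le_pow_left₀ (by positivity) hb _) (by positivity)).trans ?_
    rw [← pow_mul, ← pow_add]
    exact pow_le_pow_right₀ hK1 (by nlinarith [Nat.mul_le_mul_left C₀ hB])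
  have hexp : (n:ℝ) ^ P.inner.card * ((n:ℝ) ^ B) ^ 2 * (n:ℝ) ^ P.size
      = (n:ℝ) ^ (2 * P.m) * (n:ℝ) ^ P.k := by
    rw [← pow_mul, ← pow_add, ← pow_add, ← pow_add]
    congr 1
    have := hv.inner_le
    simp only [Piece.size, hBdef]
    omega
  rw [le_div_iff₀ (by positivity), e1, div_pow]
  calc (β ^ 2) ^ P.k / (n:ℝ) ^ P.k * ((2 * (P.k:ℝ)) ^ 2) ^ P.k * ((n:ℝ) ^ B) ^ 2 *
          ((n:ℝ) ^ P.inner.card * (K:ℝ) ^ (C₀ * B)) * (n:ℝ) ^ P.size
      = (β ^ 2) ^ P.k * ((2 * (P.k:ℝ)) ^ 2) ^ P.k * (K:ℝ) ^ (C₀ * B) *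
          (((n:ℝ) ^ P.inner.card * ((n:ℝ) ^ B) ^ 2 * (n:ℝ) ^ P.size) / (n:ℝ) ^ P.k) := by ring
    _ = (β ^ 2) ^ P.k * ((2 * (P.k:ℝ)) ^ 2) ^ P.k * (K:ℝ) ^ (C₀ * B) * (n:ℝ) ^ (2 * P.m) := by
          rw [hexp, mul_div_assoc, div_self (by positivity), mul_one]
    _ ≤ _ := mul_le_mul_of_nonneg_right hnum (by positivity)

end Vale.Agent.P146.Piece
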