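import Vale.Agent.P146.Piece.Overlap
import Vale.Agent.P146.Piece.XBound
import Vale.Agent.P146.Calc

/-! Hermite coefficients of the test function of a piece. -/

open MeasureTheory
open Vale.Agent.P150 (gauss)

noncomputable section

namespace Vale.Agent.P146.Piece

variable {n : ℕ} (P : Piece (Fin n))

/-- the coefficient met when the links in `D` are contracted -/
def val (β : ℝ) (D : Finset (Fin P.m)) (φ : Fin P.m → Fin n) (R : Idx n) : ℝ :=
  coef β ((P.idx φ - P.dIdx D φ) + (R - P.dIdx D φ))

variable {P}

lemma dWeight_ne_zero (hv : P.Valid) {φ : Fin P.m → Fin n} (hg : P.Good φ) {D : Finset (Fin P.m)}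
    (hD : D ⊆ P.inner) (R : Idx n) : P.dWeight D φ R ≠ 0 ↔ P.dIdx D φ ≤ R := by
  classical
  rw [dWeight, Finset.prod_ne_zero_iff]
  constructor
  · intro h e
    rw [dIdx, Finset.sum_apply]
    by_cases he : ∃ j ∈ D, pairIdx (φ j) (φ (P.next j)) e ≠ 0
    · obtain ⟨j, hj, hne⟩ := he
      rw [pairIdx_eq_single _ _ (hg.link_ne' hv (hD hj))] at hne
      have hej : e = mkE (φ j) (φ (P.next j)) (hg.link_ne' hv (hD hj)) := by
        by_contra hc; exact hne (Pi.single_eq_of_ne hc 1)
      have h2 := h j hj
      rw [rAt_of_ne R (hg.link_ne' hv (hD hj)), ← hej] at h2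
      have h1 : (∑ i ∈ D, pairIdx (φ i) (φ (P.next i)) e) = 1 := by
        have := dIdx_single hv hg hD hj
        rw [dIdx, Finset.sum_apply, ← hej] at this
        exact this
      exact le_of_eq_of_le h1 (Nat.one_le_iff_ne_zero.2 h2)
    · push Not at he
      rw [Finset.sum_eq_zero he]
      exact Nat.zero_le _
  · intro h j hj
    rw [rAt_of_ne R (hg.link_ne' hv (hD hj))]
    have := h (mkE (φ j) (φ (P.next j)) (hg.link_ne' hv (hD hj)))
    rw [dIdx_single hv hg hD hj] at this
    exact Nat.one_le_iff_ne_zero.1 this

lemma integrable_dFree_He (β : ℝ) {l : List (Edge n)} (hl : l ≠ []) (α : Idx n) :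
    Integrable (fun g => dFree β l g * He α g) (gauss (Edge n)) :=
  ((memLp_He α).integrable one_le_two).bdd_mul
    (continuous_dFree β l).aestronglyMeasurable (Filter.Eventually.of_forall fun g => by
      rw [Real.norm_eq_abs]; exact dFree_bound β l hl g)

lemma integral_xFun_He (β : ℝ) (hv : P.Valid) (hk : 0 < P.k) (R : Idx n) :
    ∫ g, P.xFun β hv g * He R g ∂gauss (Edge n) =
      ∑ φ ∈ P.goodSet, ∑ D ∈ P.inner.powerset, (P.dWeight D φ R : ℝ) * P.val β D φ R := by
  classical
  have key : ∀ φ : {φ : Fin P.m → Fin n // φ ∈ P.goodSet},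
      Integrable (fun g => P.innerProd φ.1 g *
          dFree β (List.ofFn (extE hv (Finset.mem_filter.1 φ.2).2)) g * He R g) (gauss (Edge n)) ∧
      ∫ g, P.innerProd φ.1 g * dFree β (List.ofFn (extE hv (Finset.mem_filter.1 φ.2).2)) g * He R g
          ∂gauss (Edge n) =
        ∑ D ∈ P.inner.powerset, (P.dWeight D φ.1 R : ℝ) * P.val β D φ.1 R := by
    rintro ⟨φ, hφ⟩
    have hg : P.Good φ := (Finset.mem_filter.1 hφ).2
    set l := List.ofFn (extE hv hg) with hl
    have hl0 : l ≠ [] := fun h => by
      have := congrArg List.length h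
      simp [hl] at this; omega
    set D₀ := Finset.univ.image (innE hv hg) with hD₀
    have hexp : ∀ g, P.innerProd φ g * dFree β l g * He R g = ∑ S ∈ D₀.powerset,
        (∏ e ∈ S, (R e : ℝ)) * (dFree β l g *
          He (fun e => R e + (if e ∈ D₀ \ S then 1 else 0) - (if e ∈ S then 1 else 0)) g) := fun g => by
      rw [innerProd_eq hv hg, mul_right_comm,
        ← Finset.prod_image (f := fun e => g e) (innE_injective hv hg).injOn, prod_mul_He, Finset.sum_mul]
      exact Finset.sum_congr rfl fun S _ => by ring
    simp only [hexp]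
    refine ⟨integrable_finsetSum _ fun S _ => (integrable_dFree_He β hl0 _).const_mul _, ?_⟩
    rw [integral_finsetSum _ fun S _ => (integrable_dFree_He β hl0 _).const_mul _]
    simp only [integral_const_mul, integral_dFree_He]
    refine Finset.sum_bij'
      (fun S _ => (Finset.univ.filter fun j => innE hv hg j ∈ S).image Subtype.val)
      (fun D _ => (Finset.univ.filter fun j : {j // j ∈ P.inner} => j.1 ∈ D).image (innE hv hg))
      (fun S _ => Finset.mem_powerset.2 fun j hj => by
        obtain ⟨a, -, rfl⟩ := Finset.mem_image.1 hj; exact a.2)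
      (fun D _ => Finset.mem_powerset.2 (Finset.image_subset_image (Finset.subset_univ _))) ?_ ?_ ?_
    · intro S hS
      ext e
      simp only [Finset.mem_image, Finset.mem_filter, Finset.mem_univ, true_and]
      constructor
      · rintro ⟨j, ⟨a, ha, hja⟩, rfl⟩
        rwa [Subtype.ext hja] at ha
      · intro he
        obtain ⟨a, -, rfl⟩ := Finset.mem_image.1 (Finset.mem_powerset.1 hS he)
        exact ⟨a, ⟨a, he, rfl⟩, rfl⟩
    · intro D hD
      ext j
      simp only [Finset.mem_image, Finset.mem_filter, Finset.mem_univ, true_and]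
      constructor
      · rintro ⟨a, ⟨b, hb, hab⟩, rfl⟩
        rwa [innE_injective hv hg hab] at hb
      · exact fun hj => ⟨⟨j, Finset.mem_powerset.1 hD hj⟩, ⟨_, hj, rfl⟩, rfl⟩
    · intro S hS
      set D := (Finset.univ.filter fun j => innE hv hg j ∈ S).image Subtype.val with hDdef
      have hDi : D ⊆ P.inner := fun j hj => by
        obtain ⟨a, -, rfl⟩ := Finset.mem_image.1 hj; exact a.2
      have hd : ∀ e, P.dIdx D φ e = if e ∈ S then 1 else 0 := by
        intro e
        split_ifs with he
        · obtain ⟨a, -, rfl⟩ := Finset.mem_image.1 (Finset.mem_powerset.1 hS he)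
          exact dIdx_single hv hg hDi (Finset.mem_image.2 ⟨a, by simpa using he, rfl⟩)
        · rw [dIdx, Finset.sum_apply]
          refine Finset.sum_eq_zero fun j hj => ?_
          obtain ⟨a, ha, rfl⟩ := Finset.mem_image.1 hj
          rw [pairIdx_eq_single _ _ (hg.link_ne' hv a.2), Pi.single_eq_of_ne]
          exact fun c => he (c ▸ (Finset.mem_filter.1 ha).2)
      have hw : (∏ e ∈ S, (R e : ℝ)) = (P.dWeight D φ R : ℝ) := by
        have hS' : S = (Finset.univ.filter fun j => innE hv hg j ∈ S).image (innE hv hg) := by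
          ext e
          simp only [Finset.mem_image, Finset.mem_filter, Finset.mem_univ, true_and]
          constructor
          · intro he
            obtain ⟨a, -, rfl⟩ := Finset.mem_image.1 (Finset.mem_powerset.1 hS he)
            exact ⟨a, he, rfl⟩
          · rintro ⟨a, ha, rfl⟩; exact ha
        rw [dWeight, Nat.cast_prod, hDdef, Finset.prod_image Subtype.val_injective.injOn]
        conv_lhs => rw [hS', Finset.prod_image (innE_injective hv hg).injOn]
        exact Finset.prod_congr rfl fun a _ => by rw [rAt_of_ne R (hg.link_ne' hv a.2)]; rfl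
      rw [hw]
      by_cases h0 : P.dWeight D φ R = 0
      · simp [h0]
      congr 1
      have hle := (dWeight_ne_zero hv hg hDi R).1 h0
      have hidx : P.idx φ = countIdx l + ∑ j, Pi.single (innE hv hg j) 1 := idx_eq_count hv hg
      rw [val]
      congr 1
      funext e
      have hin : (∑ j, (Pi.single (innE hv hg j) 1 : Idx n)) e = if e ∈ D₀ then 1 else 0 := by
        rw [Finset.sum_apply]
        simp only [Pi.single_apply]
        rw [Finset.sum_boole, hD₀]
        by_cases he : e ∈ Finset.univ.image (innE hv hg)
        · obtain ⟨a, -, rfl⟩ := Finset.mem_image.1 he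
          rw [if_pos he]
          simp [(innE_injective hv hg).eq_iff, Finset.filter_eq]
        · rw [if_neg he]
          simp only [Finset.mem_image, Finset.mem_univ, true_and, not_exists] at he
          simp [fun a => Ne.symm (he a)]
      have hi := congrFun hidx e
      rw [Pi.add_apply, hin] at hi
      have hl' := hle e
      simp only [Pi.add_apply, Pi.sub_apply, hd] at hl' ⊢
      rw [hi]
      by_cases h1 : e ∈ S
      · have h2 := Finset.mem_powerset.1 hS h1
        simp only [h1, h2, if_true, Finset.mem_sdiff, not_true, and_false, if_false] at hl' ⊢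
        omega
      · by_cases h2 : e ∈ D₀
        · simp only [h1, h2, if_true, Finset.mem_sdiff, not_false_iff, and_self, if_false] at hl' ⊢
          omega
        · simp only [h1, h2, Finset.mem_sdiff, false_and, if_false] at hl' ⊢
          omega
  simp only [xFun, Finset.sum_mul]
  rw [integral_finsetSum _ fun φ _ => (key φ).1, ← Finset.sum_coe_sort P.goodSet]
  exact Finset.sum_congr rfl fun φ _ => (key φ).2

end Vale.Agent.P146.Piece
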