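import Vale.Agent.P146.Piece.Basic
import Vale.Agent.P146.Deriv

/-! The coefficient of a placed piece does not depend on the placement. -/

noncomputable section

namespace Vale.Agent.P146.Piece

variable {n : ℕ}

lemma relabel_add (σ : Equiv.Perm (Fin n)) (α γ : Idx n) : relabel σ (α + γ) = relabel σ α + relabel σ γ := by
  funext e; simp [relabel_apply]

lemma relabel_sum {ι : Type*} (σ : Equiv.Perm (Fin n)) (s : Finset ι) (α : ι → Idx n) :
    relabel σ (∑ i ∈ s, α i) = ∑ i ∈ s, relabel σ (α i) := by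
  funext e; simp [relabel_apply, Finset.sum_apply]

lemma relabel_pairIdx (σ : Equiv.Perm (Fin n)) (a b : Fin n) :
    relabel σ (pairIdx a b) = pairIdx (σ a) (σ b) := by
  funext e
  obtain ⟨e, rfl⟩ := (edgePerm σ).surjective e
  rw [relabel_apply, Equiv.symm_apply_apply]
  unfold pairIdx
  refine if_congr ?_ rfl rfl
  rcases edgePerm_cases σ e with h | h <;> rw [h] <;> simp only [Prod.ext_iff, σ.injective.eq_iff] <;> tauto

lemma relabel_fix (σ : Equiv.Perm (Fin n)) (R : Idx n) (h : ∀ v ∈ supp R, σ v = v) : relabel σ R = R := by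
  have hfix : ∀ e : Edge n, R e ≠ 0 → edgePerm σ e = e := fun e he => by
    have h1 : ∀ v, (v = e.1.1 ∨ v = e.1.2) → σ v = v := fun v hv => h v (by
      simp only [supp, Finset.mem_filter, Finset.mem_univ, true_and, ne_eq, vdeg_eq_zero_iff]
      intro hall
      have := hall e he
      rcases hv with rfl | rfl <;> simp at this)
    rcases edgePerm_cases σ e with hc | hc <;> rw [h1 _ (Or.inl rfl), h1 _ (Or.inr rfl)] at hc
    · exact Subtype.ext hc
    · have h2 := (edgePerm σ e).2
      rw [hc] at h2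
      exact absurd h2 e.2.not_gt
  funext e
  obtain ⟨e, rfl⟩ := (edgePerm σ).surjective e
  rw [relabel_apply, Equiv.symm_apply_apply]
  by_cases he : R e = 0
  · by_cases he' : R (edgePerm σ e) = 0
    · rw [he, he']
    · have := (edgePerm σ).injective (hfix _ he')
      rw [this]
  · rw [hfix e he]

lemma exists_perm {α : Type*} [Finite α] {f g : α → Fin n} (hf : Function.Injective f)
    (hg : Function.Injective g) : ∃ σ : Equiv.Perm (Fin n), ∀ a, σ (f a) = g a := by
  classical
  let e : {x // x ∈ Set.range f} ≃ {x // x ∈ Set.range g} :=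
    (Equiv.ofInjective f hf).symm.trans (Equiv.ofInjective g hg)
  refine ⟨e.extendSubtype, fun a => ?_⟩
  rw [Equiv.extendSubtype_apply_of_mem e _ ⟨a, rfl⟩]
  simp [e, Equiv.ofInjective_symm_apply]

lemma coef_placement (β : ℝ) (P : Piece (Fin n)) {φ ψ : Fin P.m → Fin n} (hφ : P.Good φ) (hψ : P.Good ψ)
    (R : Idx n) (h1 : ∀ j, φ j ∉ supp R) (h2 : ∀ j, ψ j ∉ supp R) :
    coef β (P.idx φ + R) = coef β (P.idx ψ + R) := by
  classical
  set F := P.pinSet ∪ supp R
  have hφ' := good_iff.1 hφ
  have hψ' := good_iff.1 hψ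
  have inj : ∀ χ : Fin P.m → Fin n, Function.Injective χ → (∀ j, χ j ∉ F) →
      Function.Injective (Sum.elim (fun v : {v // v ∈ F} => v.1) χ) := fun χ hc hF =>
    Function.Injective.sumElim Subtype.val_injective hc fun v j e => hF j (e ▸ v.2)
  obtain ⟨σ, hσ⟩ := exists_perm (inj φ hφ'.1 fun j => by simp [F, hφ'.2 j, h1 j])
    (inj ψ hψ'.1 fun j => by simp [F, hψ'.2 j, h2 j])
  have hF : ∀ v ∈ F, σ v = v := fun v hv => hσ (Sum.inl ⟨v, hv⟩)
  have hm : ∀ j, σ (φ j) = ψ j := fun j => hσ (Sum.inr j)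
  have hidx : relabel σ (P.idx φ) = P.idx ψ := by
    rw [idx, idx, relabel_add, relabel_sum, relabel_sum]
    refine congrArg₂ _ (Finset.sum_congr rfl fun x _ => ?_) (Finset.sum_congr rfl fun j _ => ?_)
    · rw [relabel_pairIdx, hF _ (Finset.mem_union_left _ (P.fst_mem_pinSet x))]
      rcases hs : (P.ext x).2 with j | v
      · simp [hm]
      · simp [hF _ (Finset.mem_union_left _ (P.snd_mem_pinSet hs))]
    · rw [relabel_pairIdx, hm, hm]
  rw [← hidx, ← coef_relabel β σ (P.idx φ + R), relabel_add,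
    relabel_fix σ R fun v hv => hF v (Finset.mem_union_right _ hv)]

end Vale.Agent.P146.Piece
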