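import Vale.Agent.P146.Piece.Expand
import Vale.Agent.P146.Piece.Relabel

/-! The piece bound, by induction on the number of free vertices. -/

open MeasureTheory
open Vale.Agent.P150 (gauss)

noncomputable section

namespace Vale.Agent.P146.Piece

variable {n : ℕ}

/-- the multigraphs allowed next to a placed piece -/
def rIdx (P : Piece (Fin n)) (K : ℕ) (φ : Fin P.m → Fin n) : Finset (Idx n) :=
  (idxLe n K).filter fun R => deg R + P.size ≤ K ∧ ∀ j, vdeg R (φ j) = 0

/-- the mass carried by a placed piece -/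
def mass (P : Piece (Fin n)) (β : ℝ) (K : ℕ) (φ : Fin P.m → Fin n) : ℝ :=
  ∑ R ∈ P.rIdx K φ, coef β (P.idx φ + R) ^ 2 / fac R

variable (P : Piece (Fin n))

open Classical in
/-- patterns of pinned positions and contracted links -/
def pairs : Finset (Finset (Fin P.m) × Finset (Fin P.m)) :=
  Finset.univ.filter fun p => P.OkCls p.1 p.2 ∅

/-- all overlap classes -/
def classes : Finset (Σ _ : Finset (Fin P.m) × Finset (Fin P.m), Finset (Fin P.m)) :=
  P.pairs.sigma fun p => (P.runMid p.2).powerset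

open Classical in
/-- the placements realising a class on `R` -/
def clsSet (T D S : Finset (Fin P.m)) (R : Idx n) : Finset (Fin P.m → Fin n) :=
  Finset.univ.filter fun φ => P.InCls T D S φ R

variable {P}

lemma okCls_of_mem {κ : Σ _ : Finset (Fin P.m) × Finset (Fin P.m), Finset (Fin P.m)} (h : κ ∈ P.classes) :
    P.OkCls κ.1.1 κ.1.2 κ.2 := by
  classical
  obtain ⟨h1, h2⟩ := Finset.mem_sigma.1 h
  have h' := (Finset.mem_filter.1 h1).2
  exact ⟨h'.nonempty, h'.sub_inner, h'.sub_T, Finset.mem_powerset.1 h2⟩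

lemma fac_pos (α : Idx n) : 0 < fac α := Finset.prod_pos fun e _ => by exact_mod_cast Nat.factorial_pos _

lemma vdeg_mono {α γ : Idx n} (h : α ≤ γ) (v : Fin n) : vdeg α v ≤ vdeg γ v :=
  Finset.sum_le_sum fun e _ => by split_ifs; exacts [h e, le_rfl]

lemma mem_supp_of_le (hv : P.Valid) {φ : Fin P.m → Fin n} (hg : P.Good φ) {D : Finset (Fin P.m)}
    (hD : D ⊆ P.inner) {R : Idx n} (h : P.dIdx D φ ≤ R) {j : Fin P.m} (hj : j ∈ D) :
    φ j ∈ supp R ∧ φ (P.next j) ∈ supp R := by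
  have hR : R (mkE (φ j) (φ (P.next j)) (hg.link_ne' hv (hD hj))) ≠ 0 :=
    Nat.one_le_iff_ne_zero.1 ((dIdx_single hv hg hD hj).ge.trans (h _))
  simp only [supp, Finset.mem_filter, Finset.mem_univ, true_and, ne_eq, vdeg_eq_zero_iff]
  constructor <;> intro hall <;> have := hall _ hR <;>
    rcases mkE_val (φ j) (φ (P.next j)) (hg.link_ne' hv (hD hj)) with h' | h' <;> simp [h'] at this

lemma deg_dIdx (hv : P.Valid) {φ : Fin P.m → Fin n} (hg : P.Good φ) {D : Finset (Fin P.m)}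
    (hD : D ⊆ P.inner) : deg (P.dIdx D φ) = D.card := by
  simp only [deg, dIdx, Finset.sum_apply]
  rw [Finset.sum_comm, Finset.card_eq_sum_ones]
  refine Finset.sum_congr rfl fun j hj => ?_
  rw [pairIdx_eq_single _ _ (hg.link_ne' hv (hD hj))]
  simp [Pi.single_apply]

lemma weight_sum (hv : P.Valid) {a : ℝ} (ha : 0 ≤ a) (ha1 : a ≤ 1) (hsmall : 2 * (P.m : ℝ) * a ≤ 1 / 2) :
    ∑ κ ∈ P.classes, (a ^ 2) ^ ((P.starts κ.1.1 κ.1.2).card + κ.2.card) ≤ 8 * (P.m : ℝ) * a := by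
  classical
  have hpow : ∀ j : ℕ, j ≤ 2 * P.m → (1 + a) ^ j ≤ 1 + 2 * (j : ℝ) * a := by
    intro j
    induction j with
    | zero => simp
    | succ j ih =>
      intro hj
      have h1 := ih (by omega)
      have h2 : 2 * (j : ℝ) * a ≤ 1 := by
        have : (j : ℝ) ≤ 2 * P.m := by exact_mod_cast (show j ≤ 2 * P.m by omega)
        nlinarith
      rw [pow_succ]
      push_cast
      nlinarith [mul_le_mul_of_nonneg_right h1 (show (0:ℝ) ≤ 1 + a by linarith)]
  unfold classes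
  rw [Finset.sum_sigma]
  have hin : ∀ p ∈ P.pairs, ∑ S ∈ (P.runMid p.2).powerset,
      (a ^ 2) ^ ((P.starts p.1 p.2).card + S.card) ≤
      2 * (a ^ (P.starts p.1 p.2).card * a ^ (P.ends p.1 p.2).card) := by
    intro p hp
    have hk := (Finset.mem_filter.1 hp).2
    have hc : (P.starts p.1 p.2).card = (P.ends p.1 p.2).card := by
      have := starts_card hv hk; have := ends_card hk; omega
    have hs : ∑ S ∈ (P.runMid p.2).powerset, (a ^ 2) ^ S.card ≤ 2 := by
      have := (Finset.prod_one_add (f := fun _ => a ^ 2) (P.runMid p.2)).symm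
      simp only [Finset.prod_const] at this
      rw [this]
      refine (pow_le_pow_left₀ (by positivity) (show 1 + a ^ 2 ≤ 1 + a by nlinarith) _).trans ?_
      have hm : (P.runMid p.2).card ≤ P.m := (Finset.card_le_univ _).trans (by simp)
      refine (hpow _ (by omega)).trans ?_
      have : ((P.runMid p.2).card : ℝ) ≤ P.m := by exact_mod_cast hm
      nlinarith
    simp only [pow_add, ← Finset.mul_sum]
    rw [← pow_mul, two_mul, pow_add, hc, mul_comm 2]
    exact mul_le_mul_of_nonneg_left hs (by positivity)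
  refine (Finset.sum_le_sum hin).trans ?_
  rw [← Finset.mul_sum]
  set key := fun p : Finset (Fin P.m) × Finset (Fin P.m) => (P.starts p.1 p.2, P.ends p.1 p.2)
  set G := fun q : Finset (Fin P.m) × Finset (Fin P.m) => a ^ q.1.card * a ^ q.2.card
  have hinj : Set.InjOn key P.pairs := fun p hp q hq e => by
    simp only [pairs, Finset.coe_filter, Finset.mem_univ, true_and, Set.mem_ofPred_eq] at hp hq
    obtain ⟨h1, h2⟩ := pattern_inj hv hp hq (congrArg Prod.fst e) (congrArg Prod.snd e)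
    exact Prod.ext h1 h2
  have hle : ∑ p ∈ P.pairs, G (key p) ≤ ((1 + a) ^ P.m - 1) * (1 + a) ^ P.m := by
    rw [← Finset.sum_image hinj]
    refine (Finset.sum_le_sum_of_subset_of_nonneg (t := ((Finset.univ : Finset (Finset (Fin P.m))).erase ∅) ×ˢ
      Finset.univ) (fun q hq => ?_) fun q _ _ => by positivity).trans_eq ?_
    · obtain ⟨p, hp, rfl⟩ := Finset.mem_image.1 hq
      exact Finset.mem_product.2 ⟨Finset.mem_erase.2 ⟨(starts_nonempty hv (Finset.mem_filter.1 hp).2).ne_empty,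
        Finset.mem_univ _⟩, Finset.mem_univ _⟩
    · have hall : ∑ A : Finset (Fin P.m), a ^ A.card = (1 + a) ^ P.m := by
        have := (Finset.prod_one_add (f := fun _ => a) (Finset.univ : Finset (Fin P.m))).symm
        simp only [Finset.prod_const, Finset.powerset_univ, Finset.card_univ, Fintype.card_fin] at this
        exact this
      rw [Finset.sum_product]
      simp only [G]
      rw [← Finset.sum_mul_sum, Finset.sum_erase_eq_sub (Finset.mem_univ _), hall]
      simp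
  have h2 : (1 + a) ^ (2 * P.m) ≤ 1 + 2 * ((2 * P.m : ℕ) : ℝ) * a := hpow _ le_rfl
  push_cast at h2
  have h1 : 1 ≤ (1 + a) ^ P.m := one_le_pow₀ (by linarith)
  have h3 : ((1 + a) ^ P.m - 1) * (1 + a) ^ P.m ≤ (1 + a) ^ (2 * P.m) - 1 := by
    rw [two_mul, pow_add]; nlinarith
  nlinarith [hle.trans h3]

lemma class_bound {T D S : Finset (Fin P.m)} (hv : P.Valid) (hk0 : 0 < P.k) (hk : P.OkCls T D S)
    (β : ℝ) {K : ℕ} (hK : 2 ≤ K) (φ₀ : Fin P.m → Fin n) {B a : ℝ} (hB : 1 ≤ B)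
    (hbig : (K : ℝ) ^ 10 * B ≤ a ^ 4 * n)
    (ih : ∀ φ, P.Good φ →
      (P.sub T D φ).mass β K (P.subPlace T φ) ≤ B ^ (P.sub T D φ).order / (n : ℝ) ^ (P.sub T D φ).size) :
    ∑ R ∈ P.rIdx K φ₀, (∑ φ ∈ P.clsSet T D S R, (P.dWeight D φ R : ℝ) * P.val β D φ R) ^ 2 / fac R ≤
      (a ^ 4) ^ ((P.starts T D).card + S.card) * (B ^ P.order * (n : ℝ) ^ (2 * P.m) / (n : ℝ) ^ P.size) := by
  classical
  set c := (P.starts T D).card with hc
  set s := S.card with hs
  set z := (P.ext ⟨0, hk0⟩).1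
  have hn : (0:ℝ) < n := by exact_mod_cast z.pos
  have hTD := starts_card hv hk
  have hTm : T.card ≤ P.m := (Finset.card_le_univ _).trans (by simp)
  have hsm : s ≤ P.m := (Finset.card_le_univ _).trans (by simp)
  have hDsize : D.card ≤ P.size := (Finset.card_le_card hk.sub_inner).trans (by simp [size])
  set F := fun (R : Idx n) (φ : Fin P.m → Fin n) => P.val β D φ R ^ 2 / fac (R - P.dIdx D φ) with hF
  have hFnn : ∀ R φ, 0 ≤ F R φ := fun R φ => div_nonneg (sq_nonneg _) (fac_pos _).le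
  have hRK : ∀ R ∈ P.rIdx K φ₀, deg R ≤ K := fun R hR => by
    have := (Finset.mem_filter.1 hR).2.1; omega
  set Q : ℝ := (2 * (K : ℝ)) ^ (2 * c + s) * (n : ℝ) ^ (P.m - T.card) * ((K : ℝ) + 1) ^ (2 * c + s)
  have step1 : ∀ R ∈ P.rIdx K φ₀,
      (∑ φ ∈ P.clsSet T D S R, (P.dWeight D φ R : ℝ) * P.val β D φ R) ^ 2 / fac R ≤
      Q * ∑ φ ∈ P.clsSet T D S R, F R φ := by
    intro R hR
    have hcard : ((P.clsSet T D S R).card : ℝ) ≤ (2 * (K : ℝ)) ^ (2 * c + s) * (n : ℝ) ^ (P.m - T.card) := by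
      rcases incls_count hv hk z R with h | h
      · have h' := h.trans (Nat.mul_le_mul_right _ (Nat.pow_le_pow_left
          ((supp_card_le R).trans (Nat.mul_le_mul_left 2 (hRK R hR))) _))
        rw [clsSet]
        exact_mod_cast h'
      · have : P.clsSet T D S R = ∅ := by
          refine Finset.filter_eq_empty_iff.2 fun φ _ hφ => ?_
          obtain ⟨t, ht⟩ := hk.nonempty
          simpa [h] using (hφ.touch t).1 ht
        rw [this]
        simp only [Finset.card_empty, Nat.cast_zero]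
        positivity
    rw [div_le_iff₀ (fac_pos R)]
    refine (sq_sum_le_card_mul_sum_sq).trans ?_
    refine (mul_le_mul_of_nonneg_right hcard (Finset.sum_nonneg fun _ _ => sq_nonneg _)).trans ?_
    rw [Finset.mul_sum, Finset.mul_sum, Finset.sum_mul]
    refine Finset.sum_le_sum fun φ hφ => ?_
    have hin := (Finset.mem_filter.1 hφ).2
    have hfac := fac_dWeight hv hk hin
    have hw : (P.dWeight D φ R : ℝ) ≤ ((K : ℝ) + 1) ^ (2 * c + s) := by
      exact_mod_cast dWeight_le hv hk hin (hRK R hR)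
    have e : F R φ * fac R = (P.dWeight D φ R : ℝ) * P.val β D φ R ^ 2 := by
      rw [hF, hfac]; have := (fac_pos (R - P.dIdx D φ)).ne'; field_simp
    rw [mul_assoc Q, e]
    simp only [Q]
    rw [mul_assoc ((2 * (K : ℝ)) ^ (2 * c + s) * (n : ℝ) ^ (P.m - T.card))]
    refine mul_le_mul_of_nonneg_left ?_ (by positivity)
    rw [mul_pow, sq (P.dWeight D φ R : ℝ), mul_assoc]
    exact mul_le_mul_of_nonneg_right hw (mul_nonneg (Nat.cast_nonneg _) (sq_nonneg _))
  refine (Finset.sum_le_sum step1).trans ?_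
  rw [← Finset.mul_sum, Finset.sum_comm' (t' := P.goodSet)
    (s' := fun φ => (P.rIdx K φ₀).filter fun R => P.InCls T D S φ R) (fun R φ => by
      simp only [clsSet, goodSet, Finset.mem_filter, Finset.mem_univ, true_and]
      exact ⟨fun h => ⟨⟨h.1, h.2⟩, h.2.good⟩, fun h => ⟨h.1.1, h.1.2⟩⟩)]
  set RR := fun φ : Fin P.m → Fin n => (P.sub T D φ).rIdx K (P.subPlace T φ) with hRR
  set f := fun (φ : Fin P.m → Fin n) (R' : Idx n) =>
    coef β ((P.sub T D φ).idx (P.subPlace T φ) + R') ^ 2 / fac R' with hf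
  have hmap : ∀ φ ∈ P.goodSet, ∑ R ∈ (P.rIdx K φ₀).filter (fun R => P.InCls T D S φ R), F R φ ≤
      ∑ R' ∈ (RR φ).filter (fun R' => ∀ j ∈ S, φ j ∈ supp R'), f φ R' := by
    intro φ hφ
    have hg : P.Good φ := (Finset.mem_filter.1 hφ).2
    have hidx : P.idx φ - P.dIdx D φ = (P.sub T D φ).idx (P.subPlace T φ) := by
      rw [← sub_idx hv hk.sub_inner hk.sub_T φ, dIdx, add_tsub_cancel_right]
    have hFf : ∀ R, F R φ = f φ (R - P.dIdx D φ) := fun R => by simp only [hF, hf, val, hidx]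
    simp only [hFf]
    have hinj : Set.InjOn (fun R => R - P.dIdx D φ)
        ((P.rIdx K φ₀).filter fun R => P.InCls T D S φ R : Set (Idx n)) := by
      intro R hR R' hR' e
      simp only [Finset.coe_filter, Set.mem_ofPred_eq] at hR hR'
      have := congrArg (· + P.dIdx D φ) e
      simpa [tsub_add_cancel_of_le hR.2.le, tsub_add_cancel_of_le hR'.2.le] using this
    rw [← Finset.sum_image hinj]
    refine Finset.sum_le_sum_of_subset_of_nonneg (fun R' hR' => ?_) fun R' _ _ =>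
      div_nonneg (sq_nonneg _) (fac_pos _).le
    obtain ⟨R, hR, rfl⟩ := Finset.mem_image.1 hR'
    obtain ⟨hR, hin⟩ := Finset.mem_filter.1 hR
    obtain ⟨hR1, hR2, -⟩ := Finset.mem_filter.1 hR
    have hle : R - P.dIdx D φ ≤ R := tsub_le_self
    have hdeg : deg (R - P.dIdx D φ) + D.card = deg R := by
      rw [← deg_dIdx hv hg hk.sub_inner, deg, deg, deg, ← Finset.sum_add_distrib]
      exact Finset.sum_congr rfl fun e _ => Nat.sub_add_cancel (hin.le e)
    refine Finset.mem_filter.2 ⟨Finset.mem_filter.2 ⟨?_, ?_, fun i => ?_⟩, fun j hj => ?_⟩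
    · simp only [idxLe, Finset.mem_filter, Fintype.mem_piFinset, Finset.mem_range] at hR1 ⊢
      exact ⟨fun e => lt_of_le_of_lt (hle e) (hR1.1 e), by omega⟩
    · have := sub_size hv hk.sub_inner hk.sub_T φ; omega
    · have h1 : P.subPlace T φ i ∉ supp R := fun h => emb_not_mem i ((hin.touch _).2 h)
      have h2 : vdeg R (P.subPlace T φ i) = 0 := by simpa [supp] using h1
      exact Nat.le_zero.1 ((vdeg_mono hle _).trans h2.le)
    · exact (hin.stay j (hk.stay hj)).1 hj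
  refine (mul_le_mul_of_nonneg_left (Finset.sum_le_sum hmap) (by positivity)).trans ?_
  have hcon : ∀ φ ψ, P.Good φ → P.Good ψ → (∀ j, j ∉ P.runMid D → φ j = ψ j) →
      RR φ = RR ψ ∧ f φ = f ψ := by
    intro φ ψ _ _ h
    have he := sub_congr hv hk.sub_inner (T := T) fun j _ hj => h j hj
    have hpl : P.subPlace T φ = P.subPlace T ψ := funext fun i =>
      h _ fun hc => emb_not_mem i (runMid_sub hk hc)
    have hi : (P.sub T D φ).idx (P.subPlace T φ) = (P.sub T D ψ).idx (P.subPlace T ψ) := by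
      rw [hpl]
      show _ + _ = _ + _
      simp only [he]
      rfl
    refine ⟨?_, ?_⟩
    · simp only [hRR, rIdx, hpl]
      rfl
    · funext R'; simp only [hf, hi]
  have hord : ∀ φ, P.Good φ →
      (P.sub T D φ).order = P.order + c ∧ (P.sub T D φ).size = P.size - D.card := by
    intro φ hg
    have h1 := sub_size hv hk.sub_inner hk.sub_T φ
    have h2 := (sub_valid hv hk.sub_T hg).size_eq
    have h3 := hv.size_eq
    have h4 : (P.sub T D φ).m = P.m - T.card := by simp [Finset.card_compl]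
    omega
  have hex := exchange_sum z (K := K) (by omega) hk.stay RR f
    (fun φ R => div_nonneg (sq_nonneg _) (fac_pos _).le)
    (fun φ R hR => by have := (Finset.mem_filter.1 hR).2.1; omega) hcon
    (B := B ^ (P.order + c) / (n : ℝ) ^ (P.size - D.card)) (by positivity) (fun φ hg => by
      have := ih φ hg
      rw [(hord φ hg).1, (hord φ hg).2] at this
      exact this)
  refine (mul_le_mul_of_nonneg_left hex (by positivity)).trans ?_
  have hK1 : ((K : ℝ) + 1) ≤ (K : ℝ) ^ 2 := by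
    have : (2:ℝ) ≤ K := by exact_mod_cast hK
    nlinarith
  have hK2 : 2 * (K : ℝ) ≤ (K : ℝ) ^ 2 := by
    have : (2:ℝ) ≤ K := by exact_mod_cast hK
    nlinarith
  have hKpos : (1:ℝ) ≤ K := by exact_mod_cast (show 1 ≤ K by omega)
  have key : (2 * (K : ℝ)) ^ (2 * c + s) * ((K : ℝ) + 1) ^ (2 * c + s) * (2 * (K : ℝ)) ^ s * B ^ c ≤
      (a ^ 4) ^ (c + s) * (n : ℝ) ^ (c + s) := by
    rw [← mul_pow (a ^ 4)]
    calc _ ≤ ((K : ℝ) ^ 2) ^ (2 * c + s) * ((K : ℝ) ^ 2) ^ (2 * c + s) * ((K : ℝ) ^ 2) ^ s * B ^ (c + s) := by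
          gcongr ?_ * ?_ * ?_ * ?_
          · exact pow_le_pow_left₀ (by positivity) hK2 _
          · exact pow_le_pow_left₀ (by positivity) hK1 _
          · exact pow_le_pow_left₀ (by positivity) hK2 _
          · exact pow_le_pow_right₀ hB (by omega)
      _ ≤ ((K : ℝ) ^ 10 * B) ^ (c + s) := by
          rw [mul_pow]
          refine mul_le_mul_of_nonneg_right ?_ (by positivity)
          simp only [← pow_mul, ← pow_add]
          exact pow_le_pow_right₀ hKpos (by omega)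
      _ ≤ _ := pow_le_pow_left₀ (by positivity) hbig _
  simp only [Q]
  rw [mul_div_assoc', mul_div_assoc', mul_div_assoc', div_le_div_iff₀ (by positivity) (by positivity)]
  calc _ = ((2 * (K : ℝ)) ^ (2 * c + s) * ((K : ℝ) + 1) ^ (2 * c + s) * (2 * (K : ℝ)) ^ s * B ^ c) *
        (B ^ P.order * ((n : ℝ) ^ (P.m - T.card) * (n : ℝ) ^ (P.m - s) * (n : ℝ) ^ P.size)) := by
        rw [pow_add B]; ring
    _ ≤ ((a ^ 4) ^ (c + s) * (n : ℝ) ^ (c + s)) *
        (B ^ P.order * ((n : ℝ) ^ (P.m - T.card) * (n : ℝ) ^ (P.m - s) * (n : ℝ) ^ P.size)) :=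
        mul_le_mul_of_nonneg_right key (by positivity)
    _ = _ := by
        have e : (n : ℝ) ^ (c + s) * ((n : ℝ) ^ (P.m - T.card) * (n : ℝ) ^ (P.m - s) * (n : ℝ) ^ P.size) =
            (n : ℝ) ^ (2 * P.m) * (n : ℝ) ^ (P.size - D.card) := by
          simp only [← pow_add]; congr 1; omega
        linear_combination (a ^ 4) ^ (c + s) * B ^ P.order * e

lemma count_avoid (F : Finset (Fin n)) {K : ℕ} (hm : P.m ≤ K) (hF : F.card ≤ 2 * K) (hn : 6 * K ^ 2 ≤ n)
    (S : Finset (Fin P.m → Fin n))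
    (hS : ∀ φ : Fin P.m → Fin n, Function.Injective φ → (∀ j, φ j ∉ F) → φ ∈ S) :
    (n : ℝ) ^ P.m / 2 ≤ S.card := by
  classical
  have hle : Fintype.card (Fin P.m ↪ {v // v ∈ Fᶜ}) ≤ S.card := by
    rw [← Finset.card_univ]
    exact Finset.card_le_card_of_injOn (fun e j => (e j).1)
      (fun e _ => hS _ (Subtype.val_injective.comp e.injective) fun j => Finset.mem_compl.1 (e j).2)
      fun a _ b _ e => Function.Embedding.ext fun j => Subtype.ext (congrFun e j)
  rw [Fintype.card_embedding_eq, Fintype.card_coe, Finset.card_compl, Fintype.card_fin, Fintype.card_fin] at hle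
  have h2 := (Nat.pow_sub_le_descFactorial (n - F.card) P.m).trans hle
  rcases Nat.eq_zero_or_pos P.m with h0 | h0
  · simp only [h0, pow_zero] at h2 ⊢
    have : (1:ℝ) ≤ S.card := by exact_mod_cast h2
    linarith
  have hK : 1 ≤ K := by omega
  have hsq : K ≤ K ^ 2 := Nat.le_self_pow two_ne_zero K
  have h3 : (n - 3 * K) ^ P.m ≤ S.card := (Nat.pow_le_pow_left (by omega) _).trans h2
  have hnpos : (0:ℝ) < n := by exact_mod_cast (show 0 < n by omega)
  have hb := one_add_mul_le_pow (a := -(3 * (K:ℝ) / n)) (by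
    have h6 : 3 * (K:ℝ) ≤ n := by exact_mod_cast (show 3 * K ≤ n by omega)
    have : 3 * (K:ℝ) / n ≤ 1 := by rw [div_le_one hnpos]; exact h6
    linarith) P.m
  have h4 : (1:ℝ) / 2 ≤ 1 + P.m * -(3 * (K:ℝ) / n) := by
    have h6 : (P.m:ℝ) * (3 * K) * 2 ≤ n := by
      calc (P.m:ℝ) * (3 * K) * 2 ≤ (K:ℝ) * (3 * K) * 2 := by
            have : (P.m:ℝ) ≤ K := by exact_mod_cast hm
            gcongr
        _ ≤ n := by
            have : (6:ℝ) * (K:ℝ) ^ 2 ≤ n := by exact_mod_cast hn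
            linarith [sq (K:ℝ)]
    have : (P.m:ℝ) * (3 * K / n) ≤ 1 / 2 := by
      rw [mul_div_assoc', div_le_div_iff₀ hnpos two_pos]; linarith
    linarith
  calc (n : ℝ) ^ P.m / 2 ≤ (n : ℝ) ^ P.m * (1 + -(3 * (K:ℝ) / n)) ^ P.m := by
        rw [div_eq_mul_one_div]
        exact mul_le_mul_of_nonneg_left (h4.trans hb) (by positivity)
    _ = ((n - 3 * K : ℕ) : ℝ) ^ P.m := by
        rw [← mul_pow, Nat.cast_sub (by omega)]
        congr 1
        push_cast; field_simp; ring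
    _ ≤ _ := by exact_mod_cast h3

lemma err_decomp (β : ℝ) (hv : P.Valid) (R : Idx n) :
    (∑ φ ∈ P.goodSet.filter (fun φ => ¬∀ j, φ j ∉ supp R),
        ∑ D ∈ P.inner.powerset, (P.dWeight D φ R : ℝ) * P.val β D φ R) =
      ∑ κ ∈ P.classes, ∑ φ ∈ P.clsSet κ.1.1 κ.1.2 κ.2 R, (P.dWeight κ.1.2 φ R : ℝ) * P.val β κ.1.2 φ R := by
  classical
  rw [← Finset.sum_product', ← Finset.sum_filter_of_ne (p := fun x => P.dWeight x.2 x.1 R ≠ 0)
    (fun x _ h h0 => h (by simp [h0])), Finset.sum_sigma']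
  refine Finset.sum_bij'
    (fun x _ => ⟨⟨(Finset.univ.filter fun j => x.1 j ∈ supp R, x.2),
      (P.runMid x.2).filter fun j => x.1 j ∈ supp (R - P.dIdx x.2 x.1)⟩, x.1⟩)
    (fun y _ => (y.2, y.1.1.2)) ?_ ?_ ?_ ?_ ?_
  · intro x hx
    obtain ⟨hx1, hw⟩ := Finset.mem_filter.1 hx
    obtain ⟨hx2, hx3⟩ := Finset.mem_product.1 hx1
    obtain ⟨hx4, hx5⟩ := Finset.mem_filter.1 hx2
    have hg : P.Good x.1 := (Finset.mem_filter.1 hx4).2
    have hD := Finset.mem_powerset.1 hx3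
    have hle := (dWeight_ne_zero hv hg hD R).1 hw
    push Not at hx5
    obtain ⟨j₀, hj₀⟩ := hx5
    refine Finset.mem_sigma.2 ⟨Finset.mem_sigma.2 ⟨Finset.mem_filter.2 ⟨Finset.mem_univ _, ⟨j₀, by simpa using hj₀⟩,
      hD, fun j hj => ?_, Finset.empty_subset _⟩, Finset.mem_powerset.2 (Finset.filter_subset _ _)⟩, ?_⟩
    · have := mem_supp_of_le hv hg hD hle hj
      exact ⟨by simpa using this.1, by simpa using this.2⟩
    · refine Finset.mem_filter.2 ⟨Finset.mem_univ _, hg, fun j => by simp, hle, fun j hj => by simp [hj]⟩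
  · intro y hy
    obtain ⟨hκ, hy2⟩ := Finset.mem_sigma.1 hy
    have hk := okCls_of_mem hκ
    have hin := (Finset.mem_filter.1 hy2).2
    refine Finset.mem_filter.2 ⟨Finset.mem_product.2 ⟨Finset.mem_filter.2
      ⟨Finset.mem_filter.2 ⟨Finset.mem_univ _, hin.good⟩, ?_⟩, Finset.mem_powerset.2 hk.sub_inner⟩,
      (dWeight_ne_zero hv hin.good hk.sub_inner R).2 hin.le⟩
    push Not
    obtain ⟨t, ht⟩ := hk.nonempty
    exact ⟨t, (hin.touch t).1 ht⟩
  · intro x _; rfl
  · intro y hy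
    obtain ⟨hκ, hy2⟩ := Finset.mem_sigma.1 hy
    have hk := okCls_of_mem hκ
    have hin := (Finset.mem_filter.1 hy2).2
    have e1 : (Finset.univ.filter fun j => y.2 j ∈ supp R) = y.1.1.1 := by
      ext j; simp [← hin.touch j]
    have e2 : ((P.runMid y.1.1.2).filter fun j => y.2 j ∈ supp (R - P.dIdx y.1.1.2 y.2)) = y.1.2 := by
      ext j
      simp only [Finset.mem_filter]
      exact ⟨fun h => (hin.stay j h.1).2 h.2, fun h => ⟨hk.stay h, (hin.stay j (hk.stay h)).1 h⟩⟩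
    rcases y with ⟨⟨⟨T, D⟩, S⟩, φ⟩
    simp only at e1 e2 ⊢
    rw [e1, e2]
  · intro x _; rfl

lemma mass_step (β : ℝ) {K C : ℕ} (hv : P.Valid) (hk0 : 0 < P.k) (hsize : P.size ≤ K) (hK : 2 ≤ K)
    {φ₀ : Fin P.m → Fin n} (hg₀ : P.Good φ₀) (hn6 : 6 * K ^ 2 ≤ n)
    (hX : MemLp (P.xFun β hv) 2 (gauss (Edge n)) ∧ ∫ g, P.xFun β hv g ^ 2 ∂gauss (Edge n) ≤
      (K : ℝ) ^ (C * P.order) * (n : ℝ) ^ (2 * P.m) / (n : ℝ) ^ P.size)
    (hbig : ((K : ℝ) ^ 10 * (K : ℝ) ^ (C + 4)) * (64 * (K : ℝ)) ^ 4 ≤ n)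
    (ih : ∀ T D S : Finset (Fin P.m), P.OkCls T D S → ∀ φ, P.Good φ →
      (P.sub T D φ).mass β K (P.subPlace T φ) ≤
        ((K : ℝ) ^ (C + 4)) ^ (P.sub T D φ).order / (n : ℝ) ^ (P.sub T D φ).size) :
    P.mass β K φ₀ ≤ ((K : ℝ) ^ (C + 4)) ^ P.order / (n : ℝ) ^ P.size := by
  classical
  set B : ℝ := (K : ℝ) ^ (C + 4) with hBdef
  have hK2 : (2:ℝ) ≤ K := by exact_mod_cast hK
  have hB : 1 ≤ B := one_le_pow₀ (by linarith)
  set a : ℝ := 1 / (64 * (K : ℝ)) with hadef
  have ha : 0 < a := by positivity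
  have hnn : (0:ℝ) < n := by exact_mod_cast (P.ext ⟨0, hk0⟩).1.pos
  set U : ℝ := B ^ P.order * (n : ℝ) ^ (2 * P.m) / (n : ℝ) ^ P.size with hU
  have hU0 : 0 ≤ U := by positivity
  set E := fun R => ∫ g, P.xFun β hv g * He R g ∂gauss (Edge n) with hE
  set err := fun (κ : Σ _ : Finset (Fin P.m) × Finset (Fin P.m), Finset (Fin P.m)) R =>
    ∑ φ ∈ P.clsSet κ.1.1 κ.1.2 κ.2 R, (P.dWeight κ.1.2 φ R : ℝ) * P.val β κ.1.2 φ R with herr
  set Err := fun R => ∑ κ ∈ P.classes, err κ R with hErr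
  have hm : P.m ≤ K := hv.m_le_size.trans hsize
  have main : ∀ R ∈ P.rIdx K φ₀, ((n : ℝ) ^ P.m / 2) ^ 2 * coef β (P.idx φ₀ + R) ^ 2 ≤
      2 * E R ^ 2 + 2 * Err R ^ 2 := by
    intro R hR
    obtain ⟨-, hRd, hR0⟩ := Finset.mem_filter.1 hR
    have hoff : ∀ j, φ₀ j ∉ supp R := fun j => by simp [supp, hR0 j]
    have hsplit : E R =
        ((P.goodSet.filter fun φ => ∀ j, φ j ∉ supp R).card : ℝ) * coef β (P.idx φ₀ + R) + Err R := by
      simp only [hE, hErr, herr]
      rw [integral_xFun_He β hv hk0, ← err_decomp β hv R,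
        ← Finset.sum_filter_add_sum_filter_not P.goodSet (fun φ => ∀ j, φ j ∉ supp R)]
      congr 1
      rw [← nsmul_eq_mul, ← Finset.sum_const]
      refine Finset.sum_congr rfl fun φ hφ => ?_
      obtain ⟨hφg, hφo⟩ := Finset.mem_filter.1 hφ
      have hg : P.Good φ := (Finset.mem_filter.1 hφg).2
      rw [Finset.sum_eq_single ∅]
      · simp only [dWeight, Finset.prod_empty, Nat.cast_one, one_mul, val, dIdx, Finset.sum_empty, tsub_zero]
        exact coef_placement β P hg hg₀ R hφo hoff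
      · intro D hD hne
        obtain ⟨j, hj⟩ := Finset.nonempty_iff_ne_empty.2 hne
        by_cases h0 : P.dWeight D φ R = 0
        · simp [h0]
        · have hD' := Finset.mem_powerset.1 hD
          exact absurd (mem_supp_of_le hv hg hD' ((dWeight_ne_zero hv hg hD' R).1 h0) hj).1 (hφo j)
      · simp
    have hF : (P.pinSet ∪ supp R).card ≤ 2 * K := by
      have h1 := P.pinSet_card
      have h2 := supp_card_le R
      have h3 : P.k ≤ P.size := Nat.le_add_right _ _
      have := Finset.card_union_le P.pinSet (supp R)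
      omega
    have hN := count_avoid (P := P) (P.pinSet ∪ supp R) hm hF hn6
      (P.goodSet.filter fun φ => ∀ j, φ j ∉ supp R) fun φ hi hφ => by
        refine Finset.mem_filter.2 ⟨Finset.mem_filter.2 ⟨Finset.mem_univ _, good_iff.2 ⟨hi, fun j h => ?_⟩⟩,
          fun j h => ?_⟩
        · exact hφ j (Finset.mem_union_left _ h)
        · exact hφ j (Finset.mem_union_right _ h)
    set N : ℝ := ((P.goodSet.filter fun φ => ∀ j, φ j ∉ supp R).card : ℝ)
    have hsq : ((n : ℝ) ^ P.m / 2) ^ 2 ≤ N ^ 2 := pow_le_pow_left₀ (by positivity) hN 2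
    have e : N * coef β (P.idx φ₀ + R) = E R - Err R := by linarith
    calc ((n : ℝ) ^ P.m / 2) ^ 2 * coef β (P.idx φ₀ + R) ^ 2
        ≤ N ^ 2 * coef β (P.idx φ₀ + R) ^ 2 := mul_le_mul_of_nonneg_right hsq (sq_nonneg _)
      _ = (E R - Err R) ^ 2 := by rw [← mul_pow, e]
      _ ≤ _ := by nlinarith [sq_nonneg (E R + Err R)]
  have hEbd : ∑ R ∈ P.rIdx K φ₀, E R ^ 2 / fac R ≤ (K : ℝ) ^ (C * P.order) * (n : ℝ) ^ (2 * P.m) / (n : ℝ) ^ P.size :=
    (bessel hX.1 (P.rIdx K φ₀)).trans hX.2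
  have hbig' : (K : ℝ) ^ 10 * B ≤ a ^ 4 * n := by
    rw [hadef, div_pow, one_pow, one_div_mul_eq_div, le_div_iff₀ (by positivity)]
    exact hbig
  set w := fun κ : Σ _ : Finset (Fin P.m) × Finset (Fin P.m), Finset (Fin P.m) =>
    (a ^ 2) ^ ((P.starts κ.1.1 κ.1.2).card + κ.2.card) with hw
  have hwsum : ∑ κ ∈ P.classes, w κ ≤ 1 / 8 := by
    have hmK : (P.m : ℝ) * a ≤ 1 / 64 := by
      rw [hadef, mul_one_div, div_le_div_iff₀ (by positivity) (by norm_num)]
      have : (P.m : ℝ) ≤ K := by exact_mod_cast hm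
      linarith
    refine (weight_sum hv ha.le ?_ (by linarith)).trans (by linarith)
    rw [hadef, div_le_one (by positivity)]; linarith
  have hErrbd : ∑ R ∈ P.rIdx K φ₀, Err R ^ 2 / fac R ≤ (1 / 8) ^ 2 * U := by
    have hcs : ∀ R, Err R ^ 2 ≤ (∑ κ ∈ P.classes, w κ) * ∑ κ ∈ P.classes, err κ R ^ 2 / w κ := fun R =>
      Finset.sum_sq_le_sum_mul_sum_of_sq_le_mul _ (fun κ _ => by positivity)
        (fun κ _ => by positivity) fun κ _ => le_of_eq (by
          have : w κ ≠ 0 := by positivity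
          field_simp)
    calc ∑ R ∈ P.rIdx K φ₀, Err R ^ 2 / fac R
        ≤ ∑ R ∈ P.rIdx K φ₀, ((∑ κ ∈ P.classes, w κ) * ∑ κ ∈ P.classes, err κ R ^ 2 / w κ) / fac R :=
          Finset.sum_le_sum fun R _ => div_le_div_of_nonneg_right (hcs R) (fac_pos R).le
      _ = (∑ κ ∈ P.classes, w κ) * ∑ κ ∈ P.classes, (∑ R ∈ P.rIdx K φ₀, err κ R ^ 2 / fac R) / w κ := by
          simp only [mul_div_assoc, ← Finset.mul_sum, Finset.sum_div]
          rw [Finset.sum_comm]
          simp only [div_right_comm]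
      _ ≤ (∑ κ ∈ P.classes, w κ) * ∑ κ ∈ P.classes, w κ * U := by
          refine mul_le_mul_of_nonneg_left (Finset.sum_le_sum fun κ hκ => ?_)
            (Finset.sum_nonneg fun κ _ => by positivity)
          have hk := okCls_of_mem hκ
          rw [div_le_iff₀ (by positivity)]
          refine (class_bound hv hk0 hk β hK φ₀ hB hbig' (ih _ _ _ hk)).trans_eq ?_
          simp only [hw, hU, ← pow_mul]
          ring
      _ ≤ _ := by
          rw [← Finset.sum_mul, ← mul_assoc, ← sq]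
          exact mul_le_mul_of_nonneg_right (pow_le_pow_left₀ (Finset.sum_nonneg fun κ _ => by positivity)
            hwsum 2) hU0
  have hfull : ((n : ℝ) ^ P.m / 2) ^ 2 * P.mass β K φ₀ ≤
      2 * ((K : ℝ) ^ (C * P.order) * (n : ℝ) ^ (2 * P.m) / (n : ℝ) ^ P.size) + 2 * ((1 / 8) ^ 2 * U) := by
    rw [mass, Finset.mul_sum]
    refine le_trans (Finset.sum_le_sum (g := fun R => (2 * E R ^ 2 + 2 * Err R ^ 2) / fac R) fun R hR => ?_)
      (le_of_eq_of_le ?_ (add_le_add (mul_le_mul_of_nonneg_left hEbd zero_le_two)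
        (mul_le_mul_of_nonneg_left hErrbd zero_le_two)))
    · rw [mul_div_assoc']
      exact div_le_div_of_nonneg_right (main R hR) (fac_pos R).le
    · rw [Finset.mul_sum, Finset.mul_sum, ← Finset.sum_add_distrib]
      exact Finset.sum_congr rfl fun R _ => by ring
  have hord : 0 < P.order := hv.order_facts.2.2 hk0
  have hXU : 16 * ((K : ℝ) ^ (C * P.order)) ≤ B ^ P.order := by
    rw [hBdef, ← pow_mul, show (C + 4) * P.order = C * P.order + 4 * P.order by ring, pow_add, mul_comm]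
    refine mul_le_mul_of_nonneg_left ?_ (by positivity)
    calc (16:ℝ) = 2 ^ 4 := by norm_num
      _ ≤ (K : ℝ) ^ 4 := pow_le_pow_left₀ (by norm_num) hK2 4
      _ ≤ _ := pow_le_pow_right₀ (by linarith) (by omega)
  have hfin : ((n : ℝ) ^ P.m / 2) ^ 2 * P.mass β K φ₀ ≤
      ((n : ℝ) ^ P.m / 2) ^ 2 * (B ^ P.order / (n : ℝ) ^ P.size) := by
    refine hfull.trans ?_
    have e : ((n : ℝ) ^ P.m / 2) ^ 2 * (B ^ P.order / (n : ℝ) ^ P.size) = U / 4 := by
      rw [hU, pow_mul']; ring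
    have e2 : 16 * ((K : ℝ) ^ (C * P.order) * (n : ℝ) ^ (2 * P.m) / (n : ℝ) ^ P.size) ≤ U := by
      rw [hU, ← mul_div_assoc, ← mul_assoc]
      gcongr
    linarith
  exact le_of_mul_le_mul_left hfin (by positivity)

theorem mass_le : ∃ C : ℕ, ∀ (n K : ℕ) (β : ℝ) (P : Piece (Fin n)) (φ : Fin P.m → Fin n),
    P.Valid → P.Good φ → 0 < P.k → P.size ≤ K → 2 ≤ K → 1 + β ^ 2 ≤ K → K ^ C ≤ n → n ≤ 2 ^ K →
    P.mass β K φ ≤ (K : ℝ) ^ (C * P.order) / (n : ℝ) ^ P.size := by
  obtain ⟨C, hC⟩ := xFun_bound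
  refine ⟨C + 50, fun n K β P φ hv hg hk hsize hK hβ hn hn2 => ?_⟩
  have hCn : K ^ C ≤ n := (Nat.pow_le_pow_right (by omega) (by omega)).trans hn
  have hn6 : 6 * K ^ 2 ≤ n := by
    refine le_trans ?_ hn
    calc 6 * K ^ 2 ≤ K ^ 3 * K ^ 2 :=
          Nat.mul_le_mul_right _ (le_trans (by norm_num) (Nat.pow_le_pow_left hK 3))
      _ = K ^ 5 := by ring
      _ ≤ _ := Nat.pow_le_pow_right (by omega) (by omega)
  have hbig : ((K : ℝ) ^ 10 * (K : ℝ) ^ (C + 4)) * (64 * (K : ℝ)) ^ 4 ≤ n := by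
    have h : K ^ 10 * K ^ (C + 4) * (64 * K) ^ 4 ≤ n := by
      refine le_trans ?_ hn
      calc K ^ 10 * K ^ (C + 4) * (64 * K) ^ 4 ≤ K ^ 10 * K ^ (C + 4) * (K ^ 6 * K) ^ 4 := by
            gcongr
            calc 64 = 2 ^ 6 := by norm_num
              _ ≤ K ^ 6 := Nat.pow_le_pow_left hK 6
        _ = K ^ (10 + (C + 4) + 28) := by ring
        _ ≤ _ := Nat.pow_le_pow_right (by omega) (by omega)
    exact_mod_cast h
  suffices key : ∀ (m : ℕ) (P : Piece (Fin n)) (φ : Fin P.m → Fin n), P.m = m → P.Valid → P.Good φ →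
      0 < P.k → P.size ≤ K → P.mass β K φ ≤ ((K : ℝ) ^ (C + 4)) ^ P.order / (n : ℝ) ^ P.size by
    refine (key P.m P φ rfl hv hg hk hsize).trans (div_le_div_of_nonneg_right ?_ (by positivity))
    rw [← pow_mul]
    exact pow_le_pow_right₀ (by exact_mod_cast (show 1 ≤ K by omega)) (Nat.mul_le_mul_right _ (by omega))
  intro m
  induction m using Nat.strong_induction_on with
  | _ m ih =>
    intro P φ hm hv hg hk hsize
    refine mass_step β hv hk hsize hK hg hn6 (hC n K β P hv hk hsize hK hβ hCn hn2) hbig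
      fun T D S hok ψ hψ => ?_
    have hT : 0 < T.card := Finset.card_pos.2 hok.nonempty
    have hTm : T.card ≤ P.m := (Finset.card_le_univ _).trans (by simp)
    have h1 := sub_size hv hok.sub_inner hok.sub_T ψ
    refine ih (P.m - T.card) (by omega) _ _ ?_ (sub_valid hv hok.sub_T hψ) (sub_good hψ) ?_ (by omega)
    · simp [Finset.card_compl]
    · exact Fintype.card_pos_iff.2 ⟨(Sum.inl (⟨0, hk⟩ : Fin P.k) : Fin P.k ⊕ P.Cross T D)⟩

end Vale.Agent.P146.Piece
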