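import Vale.Agent.P146.Piece.Sub

/-! Combinatorics of the overlap classes. -/

noncomputable section

namespace Vale.Agent.P146.Piece

variable {n : ℕ} (P : Piece (Fin n)) (T D S : Finset (Fin P.m))

/-- first positions of the runs -/
def starts : Finset (Fin P.m) := T.filter fun t => ¬∃ i ∈ D, P.next i = t

/-- last positions of the runs -/
def ends : Finset (Fin P.m) := T.filter fun t => t ∉ D

/-- an overlap pattern: pinned positions, contracted links, run positions staying on the rest -/
structure OkCls : Prop where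
  nonempty : T.Nonempty
  sub_inner : D ⊆ P.inner
  sub_T : ∀ j ∈ D, j ∈ T ∧ P.next j ∈ T
  stay : S ⊆ P.runMid D

/-- the contracted couplings -/
def dIdx (φ : Fin P.m → Fin n) : Idx n := ∑ j ∈ D, pairIdx (φ j) (φ (P.next j))

/-- multiplicity in `R` of the pair `a b` -/
def rAt (R : Idx n) (a b : Fin n) : ℕ := ∑ e, pairIdx a b e * R e

/-- product of the multiplicities of the contracted couplings -/
def dWeight (φ : Fin P.m → Fin n) (R : Idx n) : ℕ := ∏ j ∈ D, rAt R (φ j) (φ (P.next j))

/-- `φ` realises the pattern on `R` -/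
structure InCls (φ : Fin P.m → Fin n) (R : Idx n) : Prop where
  good : P.Good φ
  touch : ∀ j, j ∈ T ↔ φ j ∈ supp R
  le : P.dIdx D φ ≤ R
  stay : ∀ j ∈ P.runMid D, j ∈ S ↔ φ j ∈ supp (R - P.dIdx D φ)

variable {P T D S}

lemma rAt_of_ne (R : Idx n) {a b : Fin n} (h : a ≠ b) : rAt R a b = R (mkE a b h) := by
  rw [rAt, pairIdx_eq_single a b h, Finset.sum_eq_single (mkE a b h)]
  · simp
  · intro e _ he; simp [he]
  · simp

variable (hv : P.Valid) (hk : P.OkCls T D S)
include hv

include hk in
lemma starts_card : (P.starts T D).card + D.card = T.card := by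
  have e : P.starts T D = T \ D.image P.next := by
    ext t; simp [starts, Finset.mem_sdiff]
  have hs : D.image P.next ⊆ T := fun t ht => by
    obtain ⟨i, hi, rfl⟩ := Finset.mem_image.1 ht; exact (hk.sub_T i hi).2
  rw [e, ← Finset.card_image_of_injOn (s := D) (hv.next_injOn.mono (Finset.coe_subset.2 hk.sub_inner))]
  exact Finset.card_sdiff_add_card_eq_card hs

omit hv in
lemma ends_card (hk : P.OkCls T D S) : (P.ends T D).card + D.card = T.card := by
  have e : P.ends T D = T \ D := by ext t; simp [ends]
  rw [e]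
  exact Finset.card_sdiff_add_card_eq_card fun j hj => (hk.sub_T j hj).1

include hk in
lemma starts_nonempty : (P.starts T D).Nonempty := by
  obtain ⟨t, ht, hmin⟩ := T.exists_min_image id hk.nonempty
  refine ⟨t, Finset.mem_filter.2 ⟨ht, ?_⟩⟩
  rintro ⟨i, hi, rfl⟩
  have := hv.next_val (hk.sub_inner hi)
  have h2 : P.next i ≤ i := hmin i (hk.sub_T i hi).1
  rw [Fin.le_def] at h2
  omega

include hk in
lemma card_T_le : T.card ≤ (P.runMid D).card + 2 * (P.starts T D).card := by
  have hs : T ⊆ P.runMid D ∪ (P.starts T D ∪ P.ends T D) := fun t ht => by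
    simp only [Finset.mem_union, runMid, starts, ends, Finset.mem_filter]
    tauto
  refine (Finset.card_le_card hs).trans ((Finset.card_union_le _ _).trans ?_)
  have := Finset.card_union_le (P.starts T D) (P.ends T D)
  have h1 := starts_card hv hk
  have h2 := ends_card hk
  omega

omit hv in
lemma runMid_sub (hk : P.OkCls T D S) : P.runMid D ⊆ T := fun j hj =>
  (hk.sub_T j (Finset.mem_filter.1 hj).1).1

lemma pattern_inj {T' D' S' : Finset (Fin P.m)} (hk : P.OkCls T D S) (hk' : P.OkCls T' D' S')
    (hs : P.starts T D = P.starts T' D') (he : P.ends T D = P.ends T' D') : T = T' ∧ D = D' := by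
  have key : ∀ k : ℕ, ∀ j : Fin P.m, (j : ℕ) = k → ((j ∈ T ↔ j ∈ T') ∧ (j ∈ D ↔ j ∈ D')) := by
    intro k
    induction k using Nat.strong_induction_on with
    | _ k ih =>
      intro j hj
      have hT : j ∈ T ↔ j ∈ T' := by
        constructor
        · intro h
          by_cases hst : j ∈ P.starts T D
          · exact (Finset.mem_filter.1 (hs ▸ hst)).1
          · simp only [starts, Finset.mem_filter, h, true_and, not_not] at hst
            obtain ⟨i, hi, rfl⟩ := hst
            have := hv.next_val (hk.sub_inner hi)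
            exact (hk'.sub_T i (((ih i (by omega) i rfl).2).1 hi)).2
        · intro h
          by_cases hst : j ∈ P.starts T' D'
          · exact (Finset.mem_filter.1 (hs.symm ▸ hst)).1
          · simp only [starts, Finset.mem_filter, h, true_and, not_not] at hst
            obtain ⟨i, hi, rfl⟩ := hst
            have := hv.next_val (hk'.sub_inner hi)
            exact (hk.sub_T i (((ih i (by omega) i rfl).2).2 hi)).2
      refine ⟨hT, ?_, ?_⟩
      · intro h
        by_contra h'
        have : j ∈ P.ends T' D' := Finset.mem_filter.2 ⟨hT.1 (hk.sub_T j h).1, h'⟩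
        rw [← he] at this
        exact (Finset.mem_filter.1 this).2 h
      · intro h
        by_contra h'
        have : j ∈ P.ends T D := Finset.mem_filter.2 ⟨hT.2 (hk'.sub_T j h).1, h'⟩
        rw [he] at this
        exact (Finset.mem_filter.1 this).2 h
  exact ⟨Finset.ext fun j => (key j j rfl).1, Finset.ext fun j => (key j j rfl).2⟩

omit hv in
lemma dIdx_single {φ : Fin P.m → Fin n} (hv : P.Valid) (hg : P.Good φ) (hD : D ⊆ P.inner) {j : Fin P.m}
    (hj : j ∈ D) : P.dIdx D φ (mkE (φ j) (φ (P.next j)) (hg.link_ne' hv (hD hj))) = 1 := by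
  rw [dIdx, Finset.sum_apply, Finset.sum_eq_single j]
  · rw [pairIdx_eq_single _ _ (hg.link_ne' hv (hD hj))]; simp
  · intro i hi hij
    rw [pairIdx_eq_single _ _ (hg.link_ne' hv (hD hi)), Pi.single_eq_of_ne]
    intro e
    exact hij (congrArg Subtype.val
      (innE_injective hv hg (a₁ := ⟨i, hD hi⟩) (a₂ := ⟨j, hD hj⟩) e.symm))
  · exact fun h => absurd hj h

lemma incls_ext (hk : P.OkCls T D S) {φ ψ : Fin P.m → Fin n} {R : Idx n} (h : P.InCls T D S φ R)
    (h' : P.InCls T D S ψ R) (e : ∀ j, j ∉ (P.runMid D \ S).image P.next → φ j = ψ j) : φ = ψ := by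
  have key : ∀ k : ℕ, ∀ j : Fin P.m, (j : ℕ) = k → φ j = ψ j := by
    intro k
    induction k using Nat.strong_induction_on with
    | _ k ih =>
      intro j hj
      by_cases hm : j ∈ (P.runMid D \ S).image P.next
      swap
      · exact e j hm
      obtain ⟨i, hi, rfl⟩ := Finset.mem_image.1 hm
      obtain ⟨hiW, hiS⟩ := Finset.mem_sdiff.1 hi
      obtain ⟨hiD, p, hp, hpi⟩ := Finset.mem_filter.1 hiW
      have v1 := hv.next_val (hk.sub_inner hiD)
      have v2 := hv.next_val (hk.sub_inner hp)
      rw [hpi] at v2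
      have ei : φ i = ψ i := ih i (by omega) i rfl
      have ep : φ p = ψ p := ih p (by omega) p rfl
      have hne' := h'.good.link_ne' hv (hk.sub_inner hiD)
      set ed := mkE (ψ i) (ψ (P.next i)) hne'
      have hR : 1 ≤ R ed := (dIdx_single hv h'.good hk.sub_inner hiD).ge.trans (h'.le ed)
      have hoff : φ i ∉ supp (R - P.dIdx D φ) := fun c => hiS ((h.stay i hiW).2 c)
      have hz : (R - P.dIdx D φ) ed = 0 := by
        by_contra hc
        have h0 : vdeg (R - P.dIdx D φ) (φ i) = 0 := by simpa [supp] using hoff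
        have := (vdeg_eq_zero_iff _ _).1 h0 ed hc
        rcases mkE_val (ψ i) (ψ (P.next i)) hne' with hv' | hv'
        · exact this.1 (by rw [ei]; exact congrArg Prod.fst hv')
        · exact this.2 (by rw [ei]; exact congrArg Prod.snd hv')
      have hd : P.dIdx D φ ed ≠ 0 := by
        simp only [Pi.sub_apply] at hz; omega
      rw [dIdx, Finset.sum_apply] at hd
      obtain ⟨l, hl, hl'⟩ := Finset.exists_ne_zero_of_sum_ne_zero hd
      have hln := h.good.link_ne' hv (hk.sub_inner hl)
      rw [pairIdx_eq_single _ _ hln] at hl'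
      have hle : mkE (φ l) (φ (P.next l)) hln = ed := by
        by_contra hc; exact hl' (Pi.single_eq_of_ne (Ne.symm hc) 1)
      rcases mkE_inj hle with ⟨a, b⟩ | ⟨a, b⟩
      · have hli : l = i := h.good.inj (a.trans ei.symm)
        rw [hli] at b
        exact b
      · have hlp : l = p := hv.next_injOn (hk.sub_inner hl) (hk.sub_inner hp)
          ((h.good.inj (b.trans ei.symm)).trans hpi.symm)
        rw [hlp, ep] at a
        have := congrArg Fin.val (h'.good.inj a)
        omega
  exact funext fun j => key j j rfl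

include hk in
open Classical in
lemma incls_count (z : Fin n) (R : Idx n) :
    (Finset.univ.filter fun φ => P.InCls T D S φ R).card ≤
      (supp R).card ^ (2 * (P.starts T D).card + S.card) * n ^ (P.m - T.card) ∨ supp R = ∅ := by
  by_cases hR : supp R = ∅
  · exact Or.inr hR
  refine Or.inl ?_
  set I := (P.runMid D \ S).image P.next
  have hI : I ⊆ T := fun t ht => by
    obtain ⟨i, hi, rfl⟩ := Finset.mem_image.1 ht
    exact (hk.sub_T i (Finset.mem_filter.1 (Finset.mem_sdiff.1 hi).1).1).2
  have hIc : I.card = (P.runMid D).card - S.card := by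
    simp only [I]
    have hsub : P.runMid D \ S ⊆ P.inner := fun i hi =>
      hk.sub_inner (Finset.mem_filter.1 (Finset.mem_sdiff.1 hi).1).1
    rw [Finset.card_image_of_injOn (hv.next_injOn.mono (Finset.coe_subset.2 hsub)),
      Finset.card_sdiff_of_subset hk.stay]
  let box : Fin P.m → Finset (Fin n) := fun j =>
    if j ∈ I then {z} else if j ∈ T then supp R else Finset.univ
  have hmap : (Finset.univ.filter fun φ => P.InCls T D S φ R).card ≤ (Fintype.piFinset box).card := by
    refine Finset.card_le_card_of_injOn (fun φ j => if j ∈ I then z else φ j) (fun φ hφ => ?_) ?_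
    · simp only [Finset.coe_filter, Finset.mem_univ, true_and, Set.mem_ofPred_eq] at hφ
      refine Fintype.mem_piFinset.2 fun j => ?_
      simp only [box]
      split_ifs with h1 h2
      · simp
      · exact (hφ.touch j).1 h2
      · simp
    · intro a ha b hb e
      simp only [Finset.coe_filter, Finset.mem_univ, true_and, Set.mem_ofPred_eq] at ha hb
      refine incls_ext hv hk ha hb fun j hj => ?_
      simpa [I, hj] using congrFun e j
  refine hmap.trans (le_of_eq_of_le (Fintype.card_piFinset box) ?_)
  have : ∀ j, (box j).card = (if j ∈ T \ I then (supp R).card else 1) * (if j ∈ Tᶜ then n else 1) := fun j => by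
    simp only [box]
    by_cases h1 : j ∈ I
    · simp [h1, hI h1]
    · by_cases h2 : j ∈ T <;> simp [h1, h2]
  rw [Finset.prod_congr rfl fun j _ => this j, Finset.prod_mul_distrib, Finset.prod_ite_mem,
    Finset.prod_ite_mem, Finset.univ_inter, Finset.univ_inter, Finset.prod_const, Finset.prod_const,
    Finset.card_compl, Fintype.card_fin]
  refine Nat.mul_le_mul_right _ (Nat.pow_le_pow_right ?_ ?_)
  · exact Finset.card_pos.2 (Finset.nonempty_iff_ne_empty.2 hR)
  · rw [Finset.card_sdiff_of_subset hI, hIc]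
    have := card_T_le hv hk
    have := Finset.card_le_card hk.stay
    omega

include hk in
lemma dWeight_le {φ : Fin P.m → Fin n} {R : Idx n} (h : P.InCls T D S φ R) {K : ℕ} (hK : deg R ≤ K) :
    (P.dWeight D φ R) ≤ (K + 1) ^ (2 * (P.starts T D).card + S.card) := by
  classical
  set X := D.filter fun j => (j ∈ P.runMid D → j ∈ S) ∧ (P.next j ∈ P.runMid D → P.next j ∈ S)
  have hX : X.card ≤ 2 * (P.starts T D).card + S.card := by
    have hs : X ⊆ (T \ P.runMid D) ∪ S := fun j hj => by
      obtain ⟨hjD, h1, -⟩ := Finset.mem_filter.1 hj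
      simp only [Finset.mem_union, Finset.mem_sdiff]
      by_cases hw : j ∈ P.runMid D
      · exact Or.inr (h1 hw)
      · exact Or.inl ⟨(hk.sub_T j hjD).1, hw⟩
    have := (Finset.card_le_card hs).trans (Finset.card_union_le _ _)
    rw [Finset.card_sdiff_of_subset (runMid_sub hk)] at this
    have := card_T_le hv hk
    omega
  refine le_trans ?_ (Nat.pow_le_pow_right (by omega) hX)
  rw [← Finset.prod_const, Finset.prod_filter]
  refine Finset.prod_le_prod' fun j hj => ?_
  have hne := h.good.link_ne' hv (hk.sub_inner hj)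
  rw [rAt_of_ne R hne]
  split_ifs with hc
  · have : R (mkE (φ j) (φ (P.next j)) hne) ≤ deg R :=
      Finset.single_le_sum (f := R) (fun e _ => Nat.zero_le _) (Finset.mem_univ _)
    omega
  · have h1 : P.dIdx D φ (mkE (φ j) (φ (P.next j)) hne) = 1 := dIdx_single hv h.good hk.sub_inner hj
    obtain ⟨i, hiW, hiS, hend⟩ :
        ∃ i, i ∈ P.runMid D ∧ i ∉ S ∧ (φ i = φ j ∨ φ i = φ (P.next j)) := by
      by_cases a : j ∈ P.runMid D → j ∈ S
      · have b : ¬(P.next j ∈ P.runMid D → P.next j ∈ S) := fun b => hc ⟨a, b⟩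
        push Not at b
        exact ⟨_, b.1, b.2, Or.inr rfl⟩
      · push Not at a
        exact ⟨_, a.1, a.2, Or.inl rfl⟩
    have h0 : vdeg (R - P.dIdx D φ) (φ i) = 0 := by
      simpa [supp] using fun c => hiS ((h.stay i hiW).2 c)
    have h2 : (R - P.dIdx D φ) (mkE (φ j) (φ (P.next j)) hne) = 0 := by
      by_contra hne0
      have hh := (vdeg_eq_zero_iff _ _).1 h0 _ hne0
      rcases mkE_val (φ j) (φ (P.next j)) hne with hv' | hv' <;> rw [hv'] at hh <;> rcases hend with he | he <;>
        simp [he] at hh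
    simp only [Pi.sub_apply] at h2
    omega

omit hv in
lemma fac_dWeight (hv : P.Valid) (hk : P.OkCls T D S) {φ : Fin P.m → Fin n} {R : Idx n}
    (h : P.InCls T D S φ R) :
    fac R = (P.dWeight D φ R : ℝ) * fac (R - P.dIdx D φ) := by
  classical
  have hnat : ∏ e, (R e).factorial = P.dWeight D φ R * ∏ e, ((R - P.dIdx D φ) e).factorial := by
    let f : {j // j ∈ D} → Edge n := fun j =>
      mkE (φ j.1) (φ (P.next j.1)) (h.good.link_ne' hv (hk.sub_inner j.2))
    have hf : Function.Injective f := fun a b e => Subtype.ext (by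
      simpa using innE_injective hv h.good (a₁ := ⟨a.1, hk.sub_inner a.2⟩) (a₂ := ⟨b.1, hk.sub_inner b.2⟩) e)
    have hw : P.dWeight D φ R = ∏ e ∈ Finset.univ.image f, R e := by
      rw [Finset.prod_image hf.injOn, dWeight, ← Finset.prod_coe_sort D]
      exact Finset.prod_congr rfl fun j _ => rAt_of_ne R _
    have hd : ∀ e, P.dIdx D φ e = if e ∈ Finset.univ.image f then 1 else 0 := by
      intro e
      split_ifs with he
      · obtain ⟨j, -, rfl⟩ := Finset.mem_image.1 he
        exact dIdx_single hv h.good hk.sub_inner j.2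
      · rw [dIdx, Finset.sum_apply]
        refine Finset.sum_eq_zero fun j hj => ?_
        rw [pairIdx_eq_single _ _ (h.good.link_ne' hv (hk.sub_inner hj)), Pi.single_eq_of_ne]
        exact fun c => he (c ▸ Finset.mem_image.2 ⟨⟨j, hj⟩, Finset.mem_univ _, rfl⟩)
    rw [hw, ← Finset.prod_mul_prod_compl (Finset.univ.image f) fun e => (R e).factorial,
      ← Finset.prod_mul_prod_compl (Finset.univ.image f) fun e => ((R - P.dIdx D φ) e).factorial,
      ← mul_assoc, ← Finset.prod_mul_distrib]
    refine congrArg₂ _ (Finset.prod_congr rfl fun e he => ?_) (Finset.prod_congr rfl fun e he => ?_)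
    · rw [Pi.sub_apply, hd e, if_pos he]
      have : 1 ≤ R e := by
        have := h.le e; rw [hd e, if_pos he] at this; exact this
      exact (Nat.mul_factorial_pred (by omega)).symm
    · rw [Pi.sub_apply, hd e, if_neg (Finset.mem_compl.1 he), Nat.sub_zero]
  simp only [fac]
  exact_mod_cast hnat

omit hv in
open Classical in
/-- Summing first over the run positions: they are not pins of the sub-piece. -/
lemma exchange_sum (z : Fin n) {K : ℕ} (hK : 0 < K) (hS : S ⊆ P.runMid D)
    (RR : (Fin P.m → Fin n) → Finset (Idx n)) (f : (Fin P.m → Fin n) → Idx n → ℝ)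
    (hf : ∀ φ R, 0 ≤ f φ R) (hdeg : ∀ φ R, R ∈ RR φ → deg R ≤ K)
    (hcon : ∀ φ ψ, P.Good φ → P.Good ψ → (∀ j, j ∉ P.runMid D → φ j = ψ j) →
      RR φ = RR ψ ∧ f φ = f ψ)
    {B : ℝ} (hB : 0 ≤ B) (hsum : ∀ φ, P.Good φ → ∑ R ∈ RR φ, f φ R ≤ B) :
    ∑ φ ∈ Finset.univ.filter (fun φ => P.Good φ),
        ∑ R ∈ (RR φ).filter (fun R => ∀ j ∈ S, φ j ∈ supp R), f φ R ≤
      (n : ℝ) ^ (P.m - S.card) * (2 * (K : ℝ)) ^ S.card * B := by
  set G := Finset.univ.filter fun φ : Fin P.m → Fin n => P.Good φ
  set key : (Fin P.m → Fin n) → (Fin P.m → Fin n) := fun φ j => if j ∈ P.runMid D then z else φ j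
  set keys := Fintype.piFinset fun j : Fin P.m => if j ∈ P.runMid D then {z} else Finset.univ
  have hW : (P.runMid D).card ≤ P.m := (Finset.card_le_univ _).trans (by simp)
  have hS' := Finset.card_le_card hS
  rw [← Finset.sum_fiberwise_of_maps_to (t := keys) (g := key) (fun φ _ => Fintype.mem_piFinset.2 fun j => by
    simp only [key]; split_ifs <;> simp)]
  have hkeys : (keys.card : ℝ) = (n : ℝ) ^ (P.m - (P.runMid D).card) := by
    have : ∀ j : Fin P.m, (if j ∈ P.runMid D then ({z} : Finset (Fin n)) else Finset.univ).card =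
        if j ∈ (P.runMid D)ᶜ then n else 1 := fun j => by by_cases h : j ∈ P.runMid D <;> simp [h]
    rw [Fintype.card_piFinset, Finset.prod_congr rfl fun j _ => this j, Finset.prod_ite_mem,
      Finset.univ_inter, Finset.prod_const, Finset.card_compl, Fintype.card_fin, Nat.cast_pow]
  have hfib : ∀ y ∈ keys, ∑ φ ∈ G.filter (fun φ => key φ = y),
      ∑ R ∈ (RR φ).filter (fun R => ∀ j ∈ S, φ j ∈ supp R), f φ R ≤
      (n : ℝ) ^ ((P.runMid D).card - S.card) * (2 * (K : ℝ)) ^ S.card * B := by
    intro y _
    by_cases hne : (G.filter fun φ => key φ = y).Nonempty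
    swap
    · rw [Finset.not_nonempty_iff_eq_empty.1 hne, Finset.sum_empty]; positivity
    obtain ⟨φ₀, hφ₀⟩ := hne
    obtain ⟨hg₀, hy₀⟩ := Finset.mem_filter.1 hφ₀
    have hg₀' := (Finset.mem_filter.1 hg₀).2
    have hsame : ∀ φ ∈ G.filter (fun φ => key φ = y), RR φ = RR φ₀ ∧ f φ = f φ₀ := fun φ hφ => by
      obtain ⟨hg, hy⟩ := Finset.mem_filter.1 hφ
      refine hcon φ φ₀ (Finset.mem_filter.1 hg).2 hg₀' fun j hj => ?_
      simpa [key, hj] using congrFun (hy.trans hy₀.symm) j
    rw [Finset.sum_congr rfl fun φ hφ => by rw [(hsame φ hφ).1, (hsame φ hφ).2]]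
    simp only [Finset.sum_filter (s := RR φ₀)]
    rw [Finset.sum_comm]
    have hcnt : ∀ R ∈ RR φ₀, ∑ φ ∈ G.filter (fun φ => key φ = y),
        (if ∀ j ∈ S, φ j ∈ supp R then f φ₀ R else 0) ≤
        (n : ℝ) ^ ((P.runMid D).card - S.card) * (2 * (K : ℝ)) ^ S.card * f φ₀ R := by
      intro R hR
      rw [← Finset.sum_filter, Finset.sum_const, nsmul_eq_mul]
      refine mul_le_mul_of_nonneg_right ?_ (hf _ _)
      set box : Fin P.m → Finset (Fin n) := fun j =>
        if j ∈ S then supp R else if j ∈ P.runMid D then Finset.univ else {y j}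
      have hsub : (G.filter fun φ => key φ = y).filter (fun φ => ∀ j ∈ S, φ j ∈ supp R) ⊆
          Fintype.piFinset box := fun φ hφ => by
        obtain ⟨h1, h2⟩ := Finset.mem_filter.1 hφ
        refine Fintype.mem_piFinset.2 fun j => ?_
        simp only [box]
        split_ifs with a b
        · exact h2 j a
        · simp
        · have := congrFun (Finset.mem_filter.1 h1).2 j
          simpa [key, b] using this
      have hbox : ∀ j, (box j).card = (if j ∈ S then (supp R).card else 1) *
          (if j ∈ P.runMid D \ S then n else 1) := fun j => by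
        simp only [box]
        by_cases a : j ∈ S <;> by_cases b : j ∈ P.runMid D <;> simp [a, b]
      have hc := Finset.card_le_card hsub
      rw [Fintype.card_piFinset, Finset.prod_congr rfl fun j _ => hbox j, Finset.prod_mul_distrib,
        Finset.prod_ite_mem, Finset.prod_ite_mem, Finset.univ_inter, Finset.univ_inter, Finset.prod_const,
        Finset.prod_const, Finset.card_sdiff_of_subset hS] at hc
      have hc2 := hc.trans (Nat.mul_le_mul_right _ (Nat.pow_le_pow_left
        ((supp_card_le R).trans (Nat.mul_le_mul_left 2 (hdeg _ _ hR))) _))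
      rw [mul_comm ((n : ℝ) ^ _)]
      exact_mod_cast hc2
    refine (Finset.sum_le_sum hcnt).trans ?_
    rw [← Finset.mul_sum]
    exact mul_le_mul_of_nonneg_left (hsum _ hg₀') (by positivity)
  refine (Finset.sum_le_sum hfib).trans_eq ?_
  rw [Finset.sum_const, nsmul_eq_mul, hkeys, show P.m - S.card =
    (P.m - (P.runMid D).card) + ((P.runMid D).card - S.card) by omega, pow_add]
  ring

end Vale.Agent.P146.Piece
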