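import Vale.Agent.P146.Piece.Basic

/-!
The piece left after pinning a set `T` of free vertices and deleting a set `D` of links inside `T`.
-/

noncomputable section

namespace Vale.Agent.P146.Piece

variable {n : ℕ} (P : Piece (Fin n)) (T D : Finset (Fin P.m))

/-- the increasing enumeration of the positions left free -/
def emb : Fin Tᶜ.card ↪o Fin P.m := Tᶜ.orderEmbOfFin rfl

/-- a position after pinning -/
def pos (φ : Fin P.m → Fin n) (j : Fin P.m) : Fin Tᶜ.card ⊕ Fin n :=
  if h : j ∈ T then Sum.inr (φ j) else Sum.inl ((Tᶜ.orderIsoOfFin rfl).symm ⟨j, Finset.mem_compl.2 h⟩)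

/-- links outside `D` touching `T` -/
abbrev Cross := {j : Fin P.m // j ∈ P.inner ∧ j ∉ D ∧ (j ∈ T ∨ P.next j ∈ T)}

/-- the edges with a pinned end after pinning -/
def subExt (φ : Fin P.m → Fin n) : Fin P.k ⊕ Cross P T D → Fin n × (Fin Tᶜ.card ⊕ Fin n)
  | Sum.inl x => ((P.ext x).1, Sum.elim (P.pos T φ) Sum.inr (P.ext x).2)
  | Sum.inr j => if j.1 ∈ T then (φ j.1, P.pos T φ (P.next j.1)) else (φ (P.next j.1), P.pos T φ j.1)

/-- the sub-piece -/
@[reducible] def sub (φ : Fin P.m → Fin n) : Piece (Fin n) where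
  m := Tᶜ.card
  k := Fintype.card (Fin P.k ⊕ Cross P T D)
  link i := decide (P.emb T i ∈ P.inner ∧ P.next (P.emb T i) ∉ T)
  ext y := P.subExt T D φ ((Fintype.equivFin _).symm y)

/-- the placement of the sub-piece -/
def subPlace (φ : Fin P.m → Fin n) : Fin Tᶜ.card → Fin n := φ ∘ P.emb T

/-- positions inside a run of `D` -/
def runMid : Finset (Fin P.m) := D.filter fun j => ∃ i ∈ D, P.next i = j

variable {P T D}

lemma emb_not_mem (i : Fin Tᶜ.card) : P.emb T i ∉ T :=
  Finset.mem_compl.1 (Finset.orderEmbOfFin_mem _ _ i)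

lemma emb_surj {j : Fin P.m} (h : j ∉ T) : ∃ i, P.emb T i = j := by
  have : j ∈ Set.range (P.emb T) := by
    rw [emb, Finset.range_orderEmbOfFin]; simpa using h
  exact this

lemma pos_emb (φ : Fin P.m → Fin n) (i : Fin Tᶜ.card) : P.pos T φ (P.emb T i) = Sum.inl i := by
  rw [pos, dif_neg (emb_not_mem i)]
  congr 1
  rw [OrderIso.symm_apply_eq]
  exact Subtype.ext (Finset.coe_orderIsoOfFin_apply _ _ i).symm

lemma pos_of_mem (φ : Fin P.m → Fin n) {j : Fin P.m} (h : j ∈ T) : P.pos T φ j = Sum.inr (φ j) := dif_pos h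

lemma pos_getLeft (φ : Fin P.m → Fin n) (j : Fin P.m) (i : Fin Tᶜ.card) :
    P.pos T φ j = Sum.inl i ↔ j = P.emb T i := by
  by_cases h : j ∈ T
  · rw [pos_of_mem φ h]
    simp only [reduceCtorEq, false_iff]
    exact fun e => emb_not_mem i (e ▸ h)
  · obtain ⟨i', rfl⟩ := emb_surj h
    rw [pos_emb]
    simp

lemma pos_value (φ : Fin P.m → Fin n) (j : Fin P.m) :
    Sum.elim (P.subPlace T φ) id (P.pos T φ j) = φ j := by
  by_cases h : j ∈ T
  · rw [pos_of_mem φ h]; rfl
  · obtain ⟨i', rfl⟩ := emb_surj h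
    rw [pos_emb]; rfl

lemma sub_inner {φ : Fin P.m → Fin n} {i : Fin Tᶜ.card} :
    i ∈ (P.sub T D φ).inner ↔ P.emb T i ∈ P.inner ∧ P.next (P.emb T i) ∉ T :=
  (mem_inner_iff _).trans decide_eq_true_iff

variable (hv : P.Valid)
include hv

lemma sub_next (φ : Fin P.m → Fin n) {i : Fin Tᶜ.card} (h : P.emb T i ∈ P.inner ∧ P.next (P.emb T i) ∉ T) :
    (i : ℕ) + 1 < Tᶜ.card ∧ P.emb T ((P.sub T D φ).next i) = P.next (P.emb T i) := by
  obtain ⟨i', hi'⟩ := emb_surj h.2
  have hn := hv.next_val h.1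
  rw [← hi'] at hn
  have hlt : i < i' := (P.emb T).lt_iff_lt.1 (Fin.lt_def.2 (by omega))
  have hlt' : (i : ℕ) < i' := hlt
  have h1 : (i : ℕ) + 1 < Tᶜ.card := lt_of_le_of_lt hlt i'.isLt
  refine ⟨h1, ?_⟩
  have e : (P.sub T D φ).next i = (⟨(i : ℕ) + 1, h1⟩ : Fin Tᶜ.card) := dif_pos h1
  rw [e, ← hi']
  congr 1
  apply Fin.ext
  by_contra hne
  simp only at hne
  have a1 : P.emb T i < P.emb T ⟨(i : ℕ) + 1, h1⟩ := (P.emb T).lt_iff_lt.2 (Fin.lt_def.2 (by simp))
  have a2 : P.emb T ⟨(i : ℕ) + 1, h1⟩ < P.emb T i' := (P.emb T).lt_iff_lt.2 (Fin.lt_def.2 (by simp; omega))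
  rw [Fin.lt_def] at a1 a2
  omega

lemma sum_sub_inner {M : Type*} [AddCommMonoid M] (φ : Fin P.m → Fin n) (G : Fin P.m → Fin P.m → M) :
    ∑ i ∈ (P.sub T D φ).inner, G (P.emb T i) (P.emb T ((P.sub T D φ).next i)) =
      ∑ j ∈ P.inner, if j ∉ T ∧ P.next j ∉ T then G j (P.next j) else 0 := by
  rw [← Finset.sum_filter]
  refine Finset.sum_bij (fun i _ => P.emb T i) ?_ ?_ ?_ ?_
  · intro i hi
    have h : P.emb T i ∈ P.inner ∧ P.next (P.emb T i) ∉ T := sub_inner.1 hi
    exact Finset.mem_filter.2 ⟨h.1, emb_not_mem i, h.2⟩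
  · exact fun a _ b _ e => (P.emb T).injective e
  · intro j hj
    obtain ⟨h1, h2, h3⟩ := Finset.mem_filter.1 hj
    obtain ⟨i, rfl⟩ := emb_surj h2
    exact ⟨i, sub_inner.2 ⟨h1, h3⟩, rfl⟩
  · intro i hi
    rw [(sub_next hv φ (i := i) (D := D) (sub_inner.1 hi)).2]

omit hv in
lemma sum_sub_ext {M : Type*} [AddCommMonoid M] (φ : Fin P.m → Fin n)
    (G : Fin n × (Fin Tᶜ.card ⊕ Fin n) → M) :
    ∑ y, G ((P.sub T D φ).ext y) = (∑ x, G (P.subExt T D φ (Sum.inl x))) +
      ∑ j ∈ P.inner, if j ∉ D ∧ (j ∈ T ∨ P.next j ∈ T) then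
        G (if j ∈ T then (φ j, P.pos T φ (P.next j)) else (φ (P.next j), P.pos T φ j)) else 0 := by
  refine ((Fintype.equivFin (Fin P.k ⊕ Cross P T D)).symm.sum_comp fun y => G (P.subExt T D φ y)).trans ?_
  rw [Fintype.sum_sum_type, ← Finset.sum_filter]
  congr 1
  rw [Finset.sum_subtype (P.inner.filter fun j => j ∉ D ∧ (j ∈ T ∨ P.next j ∈ T)) (fun j => Finset.mem_filter)]
  rfl

variable (hD : D ⊆ P.inner) (hDT : ∀ j ∈ D, j ∈ T ∧ P.next j ∈ T)

include hDT in
lemma sub_fdeg (φ : Fin P.m → Fin n) (i : Fin Tᶜ.card) : (P.sub T D φ).fdeg i = P.fdeg (P.emb T i) := by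
  have hi := emb_not_mem (P := P) i
  unfold fdeg
  simp only [Finset.card_eq_sum_ones, Finset.sum_filter]
  erw [sum_sub_ext φ fun z => if z.2.getLeft? = some i then 1 else 0]
  rw [← Finset.sum_add_distrib, ← Finset.sum_add_distrib]
  have e1 := sum_sub_inner hv φ (T := T) (D := D)
    (fun a b => (if a = P.emb T i then 1 else 0) + if b = P.emb T i then (1 : ℕ) else 0)
  simp only [(P.emb T).injective.eq_iff] at e1
  erw [e1]
  have e2 : ∀ x, ((P.subExt T D φ (Sum.inl x)).2.getLeft? = some i) ↔ (P.ext x).2.getLeft? = some (P.emb T i) := by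
    intro x
    simp only [subExt]
    rcases (P.ext x).2 with j | v <;> simp [pos_getLeft]
  simp only [e2]
  rw [add_comm (∑ x, _) (∑ j ∈ P.inner, _), ← add_assoc, ← Finset.sum_add_distrib]
  congr 1
  refine Finset.sum_congr rfl fun j hj => ?_
  by_cases hjD : j ∈ D
  · have := hDT j hjD
    have a1 : j ≠ P.emb T i := fun e => hi (e ▸ this.1)
    have a2 : P.next j ≠ P.emb T i := fun e => hi (e ▸ this.2)
    simp [hjD, this.1, a1, a2]
  · by_cases h1 : j ∈ T <;> by_cases h2 : P.next j ∈ T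
    · have a1 : j ≠ P.emb T i := fun e => hi (e ▸ h1)
      have a2 : P.next j ≠ P.emb T i := fun e => hi (e ▸ h2)
      simp [hjD, h1, h2, pos_getLeft, a1, a2]
    · have a1 : j ≠ P.emb T i := fun e => hi (e ▸ h1)
      simp [hjD, h1, h2, pos_getLeft, a1]
    · have a2 : P.next j ≠ P.emb T i := fun e => hi (e ▸ h2)
      simp [hjD, h1, h2, pos_getLeft, a2]
    · simp [hjD, h1, h2]

include hD hDT in
lemma sub_size (φ : Fin P.m → Fin n) : (P.sub T D φ).size + D.card = P.size := by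
  have e1 := sum_sub_inner hv φ (T := T) (D := D) (fun _ _ => (1 : ℕ))
  have e2 := sum_sub_ext φ (T := T) (D := D) (fun _ => (1 : ℕ))
  have e3 : D.card = ∑ j ∈ P.inner, if j ∈ D then 1 else 0 := by
    rw [← Finset.sum_filter, Finset.filter_mem_eq_inter, Finset.inter_eq_right.2 hD, Finset.card_eq_sum_ones]
  simp only [Finset.sum_const, Finset.card_univ, Fintype.card_fin, smul_eq_mul, mul_one] at e1 e2
  unfold size
  rw [e1, show (P.sub T D φ).k = _ from e2, e3, add_assoc, add_assoc, ← Finset.sum_add_distrib, ← Finset.sum_add_distrib]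
  congr 1
  rw [Finset.card_eq_sum_ones P.inner]
  refine Finset.sum_congr rfl fun j _ => ?_
  by_cases hjD : j ∈ D
  · simp [hjD, hDT j hjD]
  · by_cases h1 : j ∈ T <;> by_cases h2 : P.next j ∈ T <;> simp [hjD, h1, h2]

include hD hDT in
lemma sub_idx (φ : Fin P.m → Fin n) :
    (P.sub T D φ).idx (P.subPlace T φ) + ∑ j ∈ D, pairIdx (φ j) (φ (P.next j)) = P.idx φ := by
  have e1 := sum_sub_inner hv φ (T := T) (D := D) (fun a b => pairIdx (φ a) (φ b))
  have e3 : ∑ j ∈ D, pairIdx (φ j) (φ (P.next j)) =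
      ∑ j ∈ P.inner, if j ∈ D then pairIdx (φ j) (φ (P.next j)) else 0 := by
    rw [← Finset.sum_filter, Finset.filter_mem_eq_inter, Finset.inter_eq_right.2 hD]
  unfold idx
  erw [sum_sub_ext φ fun z => pairIdx z.1 (Sum.elim (P.subPlace T φ) id z.2)]
  erw [e1]
  rw [e3, add_assoc, add_assoc, ← Finset.sum_add_distrib, ← Finset.sum_add_distrib]
  refine congrArg₂ _ (Finset.sum_congr rfl fun x _ => ?_) (Finset.sum_congr rfl fun j _ => ?_)
  · simp only [subExt]
    rcases (P.ext x).2 with j | v <;> simp [pos_value]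
  · by_cases hjD : j ∈ D
    · simp [hjD, hDT j hjD]
    · by_cases h1 : j ∈ T <;> by_cases h2 : P.next j ∈ T <;>
        simp [hjD, h1, h2, pos_value, pairIdx_swap (φ (P.next j)) (φ j)]

variable {φ : Fin P.m → Fin n} (hg : P.Good φ)

include hDT hg in
lemma sub_valid : (P.sub T D φ).Valid := by
  refine ⟨fun i hi => ?_, fun i => (sub_fdeg hv hDT φ i).trans (hv.deg_two _), fun y v hy => ?_⟩
  · exact (sub_next hv φ (D := D) (by simpa [sub] using hi)).1
  · rcases hz : (Fintype.equivFin (Fin P.k ⊕ Cross P T D)).symm y with x | j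
    · simp only [sub, hz, subExt] at hy ⊢
      rcases hs : (P.ext x).2 with i | w
      · rw [hs] at hy
        simp only [Sum.elim_inl, pos] at hy
        split at hy
        · exact Sum.inr.inj hy ▸ (hg.off_fst i x).symm
        · simp at hy
      · rw [hs] at hy
        exact (Sum.inr.inj hy) ▸ hv.no_loop x w hs
    · simp only [sub, hz, subExt] at hy ⊢
      have hne := hg.link_ne' hv j.2.1
      by_cases h1 : j.1 ∈ T
      · simp only [if_pos h1] at hy ⊢
        simp only [pos] at hy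
        split at hy
        · exact Sum.inr.inj hy ▸ hne
        · simp at hy
      · simp only [if_neg h1] at hy ⊢
        simp [pos, h1] at hy

include hg in
omit hv in
lemma sub_good : (P.sub T D φ).Good (P.subPlace T φ) := by
  have key : ∀ (i : Fin Tᶜ.card) (j : Fin P.m), j ∈ T → φ (P.emb T i) ≠ φ j := fun i j hj e =>
    emb_not_mem i (hg.inj e ▸ hj)
  refine ⟨fun a b e => (P.emb T).injective (hg.inj e), fun i y => ?_, fun i y v hy => ?_⟩
  · rcases hz : (Fintype.equivFin (Fin P.k ⊕ Cross P T D)).symm y with x | j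
    · simp only [sub, hz, subExt]
      exact hg.off_fst _ x
    · simp only [sub, hz, subExt]
      rcases j with ⟨j, hj1, hj2, hj3⟩
      split
      · rename_i h; exact key i j h
      · rename_i h; exact key i _ (hj3.resolve_left h)
  · rcases hz : (Fintype.equivFin (Fin P.k ⊕ Cross P T D)).symm y with x | j
    · simp only [sub, hz, subExt] at hy
      rcases hs : (P.ext x).2 with l | w <;> rw [hs] at hy
      · simp only [Sum.elim_inl, pos] at hy
        split at hy
        · rename_i h; exact Sum.inr.inj hy ▸ key i l h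
        · simp at hy
      · exact Sum.inr.inj hy ▸ hg.off_snd _ x w hs
    · simp only [sub, hz, subExt] at hy
      rcases j with ⟨j, hj1, hj2, hj3⟩
      by_cases h1 : j ∈ T
      · simp only [if_pos h1, pos] at hy
        split at hy
        · rename_i h; exact Sum.inr.inj hy ▸ key i _ h
        · simp at hy
      · simp [h1, pos] at hy

include hD in
lemma sub_congr {φ φ' : Fin P.m → Fin n} (h : ∀ j, j ∈ T → j ∉ P.runMid D → φ j = φ' j) :
    P.subExt T D φ = P.subExt T D φ' := by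
  have hpos : ∀ j, j ∉ P.runMid D → P.pos T φ j = P.pos T φ' j := fun j hj => by
    by_cases hT : j ∈ T
    · rw [pos_of_mem φ hT, pos_of_mem φ' hT, h j hT hj]
    · simp [pos, hT]
  · funext y
    rcases y with x | ⟨j, hj1, hj2, hj3⟩
    · simp only [subExt]
      rcases hs : (P.ext x).2 with l | w
      · have : l ∉ P.runMid D := fun hl => by
          obtain ⟨h1, i, hi, h2⟩ := Finset.mem_filter.1 hl
          exact hv.f_one (hD h1) ⟨i, hD hi, h2⟩ x hs
        simp [hpos l this]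
      · rfl
    · have n1 : j ∉ P.runMid D := fun hl => hj2 (Finset.mem_filter.1 hl).1
      have n2 : P.next j ∉ P.runMid D := fun hl => by
        obtain ⟨-, i, hi, h2⟩ := Finset.mem_filter.1 hl
        exact hj2 (hv.next_injOn (hD hi) hj1 h2 ▸ hi)
      simp only [subExt]
      split
      · rename_i hT; rw [h j hT n1, hpos _ n2]
      · rename_i hT; rw [h _ (hj3.resolve_left hT) n2, hpos _ n1]

end Vale.Agent.P146.Piece
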